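import Mathlib

/-!
Area lemmas for planar pieces in Euclidean three-space (row 211).
-/

set_option autoImplicit false
open MeasureTheory Set
open scoped ENNReal

noncomputable section

namespace Crest.Agent.R211

abbrev E3 := EuclideanSpace ℝ (Fin 3)
abbrev E2 := EuclideanSpace ℝ (Fin 2)

/-- area of the parallelogram spanned by two vectors -/
def gram (a b : E3) : ℝ := Real.sqrt (‖a‖ ^ 2 * ‖b‖ ^ 2 - inner ℝ a b ^ 2)

lemma gram_nonneg (a b : E3) : 0 ≤ gram a b := Real.sqrt_nonneg _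

/-- the planar piece `c + s a + t b`, `(s,t) ∈ S` -/
def par (c a b : E3) (S : Set (ℝ × ℝ)) : Set E3 :=
  (fun z : ℝ × ℝ => c + z.1 • a + z.2 • b) '' S

lemma mem_par {c a b : E3} {S : Set (ℝ × ℝ)} {x : E3} :
    x ∈ par c a b S ↔ ∃ s t : ℝ, (s, t) ∈ S ∧ x = c + s • a + t • b := by
  constructor
  · rintro ⟨⟨s, t⟩, h, rfl⟩
    exact ⟨s, t, h, rfl⟩
  · rintro ⟨s, t, h, rfl⟩
    exact ⟨(s, t), h, rfl⟩

lemma par_mono (c a b : E3) {S T : Set (ℝ × ℝ)} (h : S ⊆ T) : par c a b S ⊆ par c a b T :=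
  image_mono h

/-- the linear map `z ↦ z₀ a + z₁ b` -/
def linAB (a b : E3) : E2 →ₗ[ℝ] E3 where
  toFun z := z 0 • a + z 1 • b
  map_add' x y := by simp [add_smul]; abel
  map_smul' c x := by simp [smul_smul]

@[simp] lemma linAB_apply (a b : E3) (z : E2) : linAB a b z = z 0 • a + z 1 • b := rfl

lemma normDet_linAB (a b : E3) : (linAB a b).normDet = gram a b := by
  have h := (linAB a b).normDet_sq_eq_det_gram (EuclideanSpace.basisFun (Fin 2) ℝ)
  have h2 : (linAB a b).normDet ^ 2 = ‖a‖ ^ 2 * ‖b‖ ^ 2 - inner ℝ a b ^ 2 := by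
    have : ((linAB a b).normDet ^ 2 : ℝ) = _ := h
    rw [this, Matrix.det_fin_two]
    simp [Matrix.gram, real_inner_comm a b]
    ring
  rw [gram, ← h2, Real.sqrt_sq (LinearMap.normDet_nonneg _)]

/-- coordinates of the Euclidean plane -/
def toPair (z : E2) : ℝ × ℝ := (z 0, z 1)

lemma measurePreserving_toPair : MeasurePreserving toPair volume volume := by
  have h1 := PiLp.volume_preserving_ofLp (Fin 2)
  have h2 := volume_preserving_finTwoArrow ℝ
  exact h2.comp h1

lemma volume_preimage_toPair (S : Set (ℝ × ℝ)) : volume (toPair ⁻¹' S) = volume S := by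
  have h1 := (PiLp.volume_preserving_ofLp (Fin 2))
  have h2 := volume_preserving_finTwoArrow ℝ
  let e : E2 ≃ᵐ (ℝ × ℝ) :=
    (MeasurableEquiv.toLp 2 (Fin 2 → ℝ)).symm.trans MeasurableEquiv.finTwoArrow
  have he : MeasurePreserving e volume volume := measurePreserving_toPair
  exact he.measure_preimage_equiv S

theorem area_par (c a b : E3) (S : Set (ℝ × ℝ)) :
    μHE[2] (par c a b S) = ENNReal.ofReal (gram a b) * volume S := by
  have h1 : par c a b S = (fun x => c + x) '' ((linAB a b) '' (toPair ⁻¹' S)) := by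
    ext x
    simp only [mem_par, mem_image, mem_preimage]
    constructor
    · rintro ⟨s, t, h, rfl⟩
      refine ⟨_, ⟨!₂[s, t], ?_, rfl⟩, ?_⟩
      · simpa [toPair] using h
      · simp [add_assoc]
    · rintro ⟨_, ⟨z, hz, rfl⟩, rfl⟩
      exact ⟨z 0, z 1, hz, by simp [add_assoc]⟩
  have h2 := (linAB a b).euclideanHausdorffMeasure_image_eq_normDet_mul_volume (toPair ⁻¹' S)
  rw [finrank_euclideanSpace_fin] at h2
  rw [h1, (isometry_add_left c).euclideanHausdorffMeasure_image, h2, normDet_linAB,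
    volume_preimage_toPair]

/-- the standard triangle -/
def tri : Set (ℝ × ℝ) := {z | 0 ≤ z.1 ∧ 0 ≤ z.2 ∧ z.1 + z.2 ≤ 1}

lemma volume_tri : volume tri = ENNReal.ofReal (1 / 2) := by
  have h1 : tri = {p : ℝ × ℝ | p.1 ∈ Icc (0 : ℝ) 1 ∧ p.2 ∈ Icc ((fun _ => 0) p.1) ((fun x => 1 - x) p.1)} := by
    ext ⟨x, y⟩
    simp only [tri, mem_ofPred_eq, mem_Icc]
    constructor
    · rintro ⟨h1, h2, h3⟩
      exact ⟨⟨h1, by linarith⟩, h2, by linarith⟩
    · rintro ⟨⟨h1, -⟩, h2, h3⟩
      exact ⟨h1, h2, by linarith⟩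
  have hm : MeasurableSet tri := by
    unfold tri
    measurability
  rw [Measure.volume_eq_prod, Measure.prod_apply hm]
  have h2 : ∀ x : ℝ, volume (Prod.mk x ⁻¹' tri) =
      (Icc (0 : ℝ) 1).indicator (fun x => ENNReal.ofReal (1 - x)) x := by
    intro x
    by_cases hx : x ∈ Icc (0 : ℝ) 1
    · rw [indicator_of_mem hx]
      have : Prod.mk x ⁻¹' tri = Icc 0 (1 - x) := by
        ext y
        simp only [tri, mem_preimage, mem_ofPred_eq, mem_Icc]
        constructor
        · rintro ⟨-, h2, h3⟩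
          exact ⟨h2, by linarith⟩
        · rintro ⟨h2, h3⟩
          exact ⟨hx.1, h2, by linarith⟩
      rw [this, Real.volume_Icc, sub_zero]
    · rw [indicator_of_notMem hx]
      have : Prod.mk x ⁻¹' tri = ∅ := by
        ext y
        simp only [tri, mem_preimage, mem_ofPred_eq, mem_empty_iff_false, iff_false]
        rintro ⟨h1, h2, h3⟩
        exact hx ⟨h1, by linarith⟩
      simp [this]
  simp_rw [h2]
  rw [lintegral_indicator measurableSet_Icc, ← ofReal_integral_eq_lintegral_ofReal]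
  · congr 1
    rw [integral_Icc_eq_integral_Ioc, ← intervalIntegral.integral_of_le zero_le_one,
      intervalIntegral.integral_sub (by simp) (by simp)]
    simp; norm_num
  · exact (continuous_const.sub continuous_id).integrableOn_Icc
  · filter_upwards [ae_restrict_mem measurableSet_Icc] with x hx
    simpa using hx.2

lemma convexHull_three (p q r : E3) :
    convexHull ℝ ({p, q, r} : Set E3) = par p (q - p) (r - p) tri := by
  apply Subset.antisymm
  · apply convexHull_min
    · intro x hx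
      simp only [mem_insert_iff, mem_singleton_iff] at hx
      rcases hx with rfl | rfl | rfl
      · exact mem_par.2 ⟨0, 0, by simp [tri], by simp⟩
      · exact mem_par.2 ⟨1, 0, by simp [tri], by simp⟩
      · exact mem_par.2 ⟨0, 1, by simp [tri], by simp⟩
    · intro x hx y hy α β hα hβ hαβ
      obtain ⟨s, t, ⟨h1, h2, h3⟩, rfl⟩ := mem_par.1 hx
      obtain ⟨s', t', ⟨h1', h2', h3'⟩, rfl⟩ := mem_par.1 hy
      refine mem_par.2 ⟨α * s + β * s', α * t + β * t', ⟨by positivity, by positivity, ?_⟩, ?_⟩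
      · simp only at h1 h2 h3 h1' h2' h3' ⊢
        nlinarith
      · have hβ' : β = 1 - α := by linarith
        subst hβ'
        ext i
        simp
        ring
  · intro x hx
    obtain ⟨s, t, ⟨h1, h2, h3⟩, rfl⟩ := mem_par.1 hx
    simp only at h1 h2 h3
    have hc := convex_convexHull ℝ ({p, q, r} : Set E3)
    have hp : p ∈ convexHull ℝ ({p, q, r} : Set E3) := subset_convexHull _ _ (by simp)
    have hq : q ∈ convexHull ℝ ({p, q, r} : Set E3) := subset_convexHull _ _ (by simp)
    have hr : r ∈ convexHull ℝ ({p, q, r} : Set E3) := subset_convexHull _ _ (by simp)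
    have := hc.sum_mem (t := Finset.univ) (w := ![1 - s - t, s, t]) (z := ![p, q, r])
      (by intro i _; fin_cases i <;> simp <;> linarith) (by simp [Fin.sum_univ_three]; ring)
      (by intro i _; fin_cases i <;> simpa)
    convert this using 1
    ext i
    simp [Fin.sum_univ_three]
    ring

theorem area_triangle (p q r : E3) :
    μHE[2] (convexHull ℝ ({p, q, r} : Set E3)) = ENNReal.ofReal (gram (q - p) (r - p) / 2) := by
  rw [convexHull_three, area_par, volume_tri, ← ENNReal.ofReal_mul (gram_nonneg _ _)]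
  congr 1
  ring

theorem area_triangle_toReal (p q r : E3) :
    (μHE[2] (convexHull ℝ ({p, q, r} : Set E3))).toReal = gram (q - p) (r - p) / 2 := by
  rw [area_triangle, ENNReal.toReal_ofReal (by have := gram_nonneg (q - p) (r - p); positivity)]

lemma parallelogram_eq (c a b : E3) :
    {x : E3 | ∃ s ∈ Icc (0 : ℝ) 1, ∃ t ∈ Icc (0 : ℝ) 1, x = c + s • a + t • b} =
      par c a b (Icc 0 1 ×ˢ Icc 0 1) := by
  ext x
  simp only [mem_par, mem_ofPred_eq, mem_prod]
  constructor
  · rintro ⟨s, hs, t, ht, h⟩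
    exact ⟨s, t, ⟨hs, ht⟩, h⟩
  · rintro ⟨s, t, ⟨hs, ht⟩, h⟩
    exact ⟨s, hs, t, ht, h⟩

theorem area_parallelogram (c a b : E3) :
    μHE[2] {x : E3 | ∃ s ∈ Icc (0 : ℝ) 1, ∃ t ∈ Icc (0 : ℝ) 1, x = c + s • a + t • b} =
      ENNReal.ofReal (gram a b) := by
  rw [parallelogram_eq, area_par, Measure.volume_eq_prod, Measure.prod_prod]
  simp

/-- triple product -/
def det3 (a b c : E3) : ℝ :=
  a 0 * (b 1 * c 2 - b 2 * c 1) - a 1 * (b 0 * c 2 - b 2 * c 0) + a 2 * (b 0 * c 1 - b 1 * c 0)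

lemma inner3 (a b : E3) : inner ℝ a b = a 0 * b 0 + a 1 * b 1 + a 2 * b 2 := by
  simp [PiLp.inner_apply, Fin.sum_univ_three]; ring

lemma normsq3 (a : E3) : ‖a‖ ^ 2 = a 0 ^ 2 + a 1 ^ 2 + a 2 ^ 2 := by
  rw [← real_inner_self_eq_norm_sq, inner3]; ring

/-- orthogonal projection along `n` -/
def projN (n y : E3) : E3 := y - (inner ℝ y n / ‖n‖ ^ 2) • n

lemma inner_projN {n : E3} (hn : n ≠ 0) (y : E3) : inner ℝ (projN n y) n = 0 := by
  have h : ‖n‖ ≠ 0 := norm_ne_zero_iff.2 hn
  rw [projN, inner_sub_left, real_inner_smul_left, real_inner_self_eq_norm_sq]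
  field_simp
  ring

lemma projN_add (n x y : E3) : projN n (x + y) = projN n x + projN n y := by
  simp only [projN, inner_add_left, add_div, add_smul]; abel

lemma projN_sub (n x y : E3) : projN n (x - y) = projN n x - projN n y := by
  simp only [projN, inner_sub_left, sub_div, sub_smul]; abel

lemma projN_smul (n x : E3) (c : ℝ) : projN n (c • x) = c • projN n x := by
  simp only [projN, real_inner_smul_left, smul_sub, smul_smul, mul_div_assoc]

lemma projN_self {n : E3} (hn : n ≠ 0) : projN n n = 0 := by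
  have h : ‖n‖ ≠ 0 := norm_ne_zero_iff.2 hn
  rw [projN, real_inner_self_eq_norm_sq, div_self (by positivity)]
  simp

lemma projN_unit {n : E3} (hn : ‖n‖ = 1) (y : E3) : projN n y = y - inner ℝ y n • n := by
  simp [projN, hn]

lemma image_projN_par (n c a b : E3) (S : Set (ℝ × ℝ)) :
    projN n '' par c a b S = par (projN n c) (projN n a) (projN n b) S := by
  simp only [par, image_image, projN_add, projN_smul]

/-- the area of a projected parallelogram -/
theorem gram_projN {n : E3} (hn : n ≠ 0) (a b : E3) :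
    gram (projN n a) (projN n b) = |det3 a b n| / ‖n‖ := by
  have h : 0 < ‖n‖ := norm_pos_iff.2 hn
  have h2 : 0 < n 0 ^ 2 + n 1 ^ 2 + n 2 ^ 2 := by rw [← normsq3]; positivity
  rw [gram, Real.sqrt_eq_iff_mul_self_eq _ (by positivity)]
  · rw [div_mul_div_comm, abs_mul_abs_self, ← sq ‖n‖, normsq3, normsq3, normsq3, inner3]
    simp only [projN, inner3, normsq3, det3, PiLp.sub_apply, PiLp.smul_apply, smul_eq_mul]
    field_simp
    ring
  · have := real_inner_mul_inner_self_le (projN n a) (projN n b)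
    rw [real_inner_self_eq_norm_sq, real_inner_self_eq_norm_sq] at this
    nlinarith

/-- if `a, b, w ⊥ e`, `‖e‖ = 1`, projecting along `e + w` scales area by `1/√(1+‖w‖²)` -/
theorem gram_projN_add {e w a b : E3} (he : ‖e‖ = 1) (ha : inner ℝ a e = 0)
    (hb : inner ℝ b e = 0) (hw : inner ℝ w e = 0) :
    gram (projN (e + w) a) (projN (e + w) b) = gram a b / Real.sqrt (1 + ‖w‖ ^ 2) := by
  have hn2 : ‖e + w‖ ^ 2 = 1 + ‖w‖ ^ 2 := by
    rw [norm_add_sq_real, he, real_inner_comm, hw]; ring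
  have hn : e + w ≠ 0 := by
    intro h
    rw [h] at hn2
    simp at hn2
    nlinarith [sq_nonneg ‖w‖]
  rw [gram_projN hn, ← hn2, Real.sqrt_sq (norm_nonneg _)]
  congr 1
  have he2 : e 0 ^ 2 + e 1 ^ 2 + e 2 ^ 2 = 1 := by rw [← normsq3, he]; norm_num
  rw [inner3] at ha hb hw
  have h1 : det3 a b (e + w) = det3 a b e := by
    simp only [det3, PiLp.add_apply]
    linear_combination
      (-(a 0 * (b 1 * w 2 - b 2 * w 1) - a 1 * (b 0 * w 2 - b 2 * w 0) + a 2 * (b 0 * w 1 - b 1 * w 0))) * he2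
      + (e 0 * (b 1 * w 2 - b 2 * w 1) - e 1 * (b 0 * w 2 - b 2 * w 0) + e 2 * (b 0 * w 1 - b 1 * w 0)) * ha
      + (a 0 * (e 1 * w 2 - e 2 * w 1) - a 1 * (e 0 * w 2 - e 2 * w 0) + a 2 * (e 0 * w 1 - e 1 * w 0)) * hb
      + (a 0 * (b 1 * e 2 - b 2 * e 1) - a 1 * (b 0 * e 2 - b 2 * e 0) + a 2 * (b 0 * e 1 - b 1 * e 0)) * hw
  have hne : e ≠ 0 := by
    intro h; rw [h] at he; simp at he
  have h3 := gram_projN hne a b
  rw [projN_unit he, projN_unit he, inner3, inner3, ha, hb, he] at h3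
  simpa [h1] using h3.symm

lemma gram_add_smul (a b : E3) (c : ℝ) : gram (a + c • b) b = gram a b := by
  unfold gram
  congr 1
  simp only [normsq3, inner3, PiLp.add_apply, PiLp.smul_apply, smul_eq_mul]
  ring

lemma gram_smul (a b : E3) (s t : ℝ) : gram (s • a) (t • b) = |s * t| * gram a b := by
  unfold gram
  rw [← Real.sqrt_sq_eq_abs, ← Real.sqrt_mul (sq_nonneg _)]
  congr 1
  simp only [normsq3, inner3, PiLp.smul_apply, smul_eq_mul]
  ring

/-- change of basis in the plane -/
lemma gram_comb (a b : E3) (s t u v : ℝ) :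
    gram (s • a + t • b) (u • a + v • b) = |s * v - t * u| * gram a b := by
  unfold gram
  rw [← Real.sqrt_sq_eq_abs, ← Real.sqrt_mul (sq_nonneg _)]
  congr 1
  simp only [normsq3, inner3, PiLp.add_apply, PiLp.smul_apply, smul_eq_mul]
  ring

/-- the plane orthogonal to `u` -/
abbrev perp (u : E3) : Submodule ℝ E3 := (ℝ ∙ u)ᗮ

lemma mem_perp {u x : E3} : x ∈ perp u ↔ inner ℝ x u = 0 := by
  rw [Submodule.mem_orthogonal_singleton_iff_inner_left]

lemma finrank_perp {u : E3} (hu : u ≠ 0) : Module.finrank ℝ (perp u) = 2 := by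
  have h1 := (ℝ ∙ u).finrank_add_finrank_orthogonal
  rw [finrank_span_singleton hu, finrank_euclideanSpace_fin] at h1
  unfold perp
  omega

lemma area_eq_volume_perp {u : E3} (hu : u ≠ 0) (S : Set (perp u)) :
    μHE[2] (Subtype.val '' S : Set E3) = volume S := by
  rw [isometry_subtype_coe.euclideanHausdorffMeasure_image,
    ← InnerProductSpace.euclideanHausdorffMeasure_eq_volume, finrank_perp hu]

lemma image_preimage_perp {u : E3} {K : Set E3} (hK : ∀ x ∈ K, inner ℝ x u = 0) :
    (Subtype.val '' (Subtype.val ⁻¹' K : Set (perp u)) : Set E3) = K := by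
  ext x
  simp only [mem_image, mem_preimage, Subtype.exists, exists_and_right, exists_eq_right]
  constructor
  · rintro ⟨_, h⟩; exact h
  · intro h; exact ⟨mem_perp.2 (hK x h), h⟩

/-- bounded planar sets have finite area -/
theorem area_lt_top {u : E3} (hu : u ≠ 0) {K : Set E3} (hK : ∀ x ∈ K, inner ℝ x u = 0)
    (hb : Bornology.IsBounded K) : μHE[2] K < ⊤ := by
  rw [← image_preimage_perp hK, area_eq_volume_perp hu]
  apply Bornology.IsBounded.measure_lt_top
  exact (isometry_subtype_coe.antilipschitz).isBounded_preimage hb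

/-- a bounded planar set sits in a bounded relatively open set of nearly the same area -/
theorem exists_open_base {u : E3} (hu : u ≠ 0) {K : Set E3} (hK : ∀ x ∈ K, inner ℝ x u = 0)
    (hb : Bornology.IsBounded K) {η : ℝ} (hη : 0 < η) :
    ∃ B : Set E3, Bornology.IsBounded B ∧
      (∃ O : Set E3, IsOpen O ∧ B = O ∩ {x | inner ℝ x u = 0}) ∧ K ⊆ B ∧
      (μHE[2] B).toReal ≤ (μHE[2] K).toReal + η := by
  have hfin := area_lt_top hu hK hb
  set K' : Set (perp u) := Subtype.val ⁻¹' K with hK'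
  have hvol : μHE[2] K = volume K' := by
    rw [← area_eq_volume_perp hu, image_preimage_perp hK]
  obtain ⟨U, hKU, hUo, hU⟩ := K'.exists_isOpen_lt_add (μ := volume) (by rw [← hvol]; exact hfin.ne)
    (ε := ENNReal.ofReal η) (by simpa using hη)
  obtain ⟨O, hO, rfl⟩ := isOpen_induced_iff.1 hUo
  obtain ⟨r, hr⟩ := hb.subset_ball 0
  refine ⟨(O ∩ Metric.ball 0 r) ∩ {x | inner ℝ x u = 0}, ?_, ⟨_, hO.inter Metric.isOpen_ball, rfl⟩,
    ?_, ?_⟩
  · exact Metric.isBounded_ball.subset (fun x hx => hx.1.2)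
  · intro x hx
    exact ⟨⟨hKU (show (⟨x, mem_perp.2 (hK x hx)⟩ : perp u) ∈ K' from hx), hr hx⟩, hK x hx⟩
  · have h1 : μHE[2] ((O ∩ Metric.ball 0 r) ∩ {x | inner ℝ x u = 0} : Set E3) ≤
        μHE[2] K + ENNReal.ofReal η := by
      rw [hvol]
      refine le_trans ?_ hU.le
      rw [← area_eq_volume_perp hu]
      apply measure_mono
      rintro x ⟨⟨h1, -⟩, h2⟩
      exact ⟨⟨x, mem_perp.2 h2⟩, h1, rfl⟩
    have h2 := ENNReal.toReal_mono (by finiteness) h1
    rwa [ENNReal.toReal_add hfin.ne (by simp), ENNReal.toReal_ofReal hη.le] at h2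

lemma isCompact_par (c a b : E3) {S : Set (ℝ × ℝ)} (hS : IsCompact S) : IsCompact (par c a b S) :=
  hS.image (by fun_prop)

lemma inner_eq_zero_of_mem_par {c a b u x : E3} {S : Set (ℝ × ℝ)} (hc : inner ℝ c u = 0)
    (ha : inner ℝ a u = 0) (hb : inner ℝ b u = 0) (hx : x ∈ par c a b S) : inner ℝ x u = 0 := by
  obtain ⟨s, t, -, rfl⟩ := mem_par.1 hx
  simp [inner_add_left, real_inner_smul_left, hc, ha, hb]

end Crest.Agent.R211

end
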