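import Crest.Agent.R211.Tetra

/-!
Areas of the orthogonal projections of the model tetrahedron (row 211).
-/

set_option autoImplicit false
open MeasureTheory Set
open scoped ENNReal

noncomputable section

namespace Crest.Agent.R211

lemma par_tri_subset {C : Set E3} (hC : Convex ℝ C) {c a b : E3} (h0 : c ∈ C) (h1 : c + a ∈ C)
    (h2 : c + b ∈ C) : par c a b tri ⊆ C := by
  have : par c a b tri = convexHull ℝ {c, c + a, c + b} := by
    rw [convexHull_three]; simp
  rw [this]
  apply convexHull_min _ hC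
  intro x hx
  simp only [mem_insert_iff, mem_singleton_iff] at hx
  rcases hx with rfl | rfl | rfl <;> assumption

lemma isCompact_tri : IsCompact tri := by
  have h1 : IsClosed tri := by
    unfold tri
    refine (isClosed_le continuous_const continuous_fst).inter
      ((isClosed_le continuous_const continuous_snd).inter
        (isClosed_le (continuous_fst.add continuous_snd) continuous_const))
  refine (isCompact_Icc (a := ((0 : ℝ), (0 : ℝ))) (b := (1, 1))).of_isClosed_subset h1 ?_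
  rintro ⟨x, y⟩ ⟨h1, h2, h3⟩
  simp only at h1 h2 h3
  exact ⟨⟨h1, h2⟩, ⟨by simp only; linarith, by simp only; linarith⟩⟩

lemma volume_tri_pos : volume (tri ∩ {z : ℝ × ℝ | 0 < z.2}) = ENNReal.ofReal (1 / 2) := by
  rw [← volume_tri]
  apply le_antisymm (measure_mono inter_subset_left)
  have h0 : volume ((univ : Set ℝ) ×ˢ ({0} : Set ℝ)) = 0 := by
    rw [Measure.volume_eq_prod, Measure.prod_prod]; simp
  calc volume tri ≤ volume ((tri ∩ {z : ℝ × ℝ | 0 < z.2}) ∪ (univ : Set ℝ) ×ˢ ({0} : Set ℝ)) := by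
        apply measure_mono
        intro z hz
        rcases hz.2.1.lt_or_eq with h | h
        · exact Or.inl ⟨hz, h⟩
        · exact Or.inr ⟨trivial, h.symm⟩
    _ ≤ _ := measure_union_le _ _
    _ = _ := by rw [h0, add_zero]

lemma area_par_tri (c a b : E3) : μHE[2] (par c a b tri) = ENNReal.ofReal (gram a b / 2) := by
  rw [area_par, volume_tri, ← ENNReal.ofReal_mul (gram_nonneg _ _)]
  congr 1; ring

/-- two triangles on opposite sides of a common edge -/
lemma two_tri {C : Set E3} (hC : Convex ℝ C) {c a b b' v : E3} (h0 : c ∈ C) (h1 : c + a ∈ C)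
    (h2 : c + b ∈ C) (h3 : c + b' ∈ C) (hd : det3 a b v * det3 a b' v < 0) :
    ENNReal.ofReal (gram a b / 2 + gram a b' / 2) ≤ μHE[2] C := by
  have hg1 := gram_nonneg a b
  have hg2 := gram_nonneg a b'
  have e1 : μHE[2] (par c a b (tri ∩ {z : ℝ × ℝ | 0 < z.2})) = ENNReal.ofReal (gram a b / 2) := by
    rw [area_par, volume_tri_pos, ← ENNReal.ofReal_mul hg1]
    congr 1; ring
  rw [ENNReal.ofReal_add (by positivity) (by positivity), ← e1, ← area_par_tri c a b',
    ← measure_union]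
  · apply measure_mono
    apply union_subset
    · exact (par_mono _ _ _ inter_subset_left).trans (par_tri_subset hC h0 h1 h2)
    · exact par_tri_subset hC h0 h1 h3
  · rw [Set.disjoint_left]
    intro x hx hx'
    obtain ⟨s, t, ⟨-, ht⟩, rfl⟩ := mem_par.1 hx
    obtain ⟨s', t', ⟨-, ht', -⟩, h⟩ := mem_par.1 hx'
    simp only [mem_ofPred_eq] at ht ht'
    have k0 := congrArg (fun w : E3 => w 0) h
    have k1 := congrArg (fun w : E3 => w 1) h
    have k2 := congrArg (fun w : E3 => w 2) h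
    simp only [PiLp.add_apply, PiLp.smul_apply, smul_eq_mul] at k0 k1 k2
    have key : t * det3 a b v = t' * det3 a b' v := by
      simp only [det3]
      linear_combination (a 2 * v 1 - a 1 * v 2) * k0 + (a 0 * v 2 - a 2 * v 0) * k1
        + (a 1 * v 0 - a 0 * v 1) * k2
    have : t * (det3 a b v * det3 a b' v) = t' * (det3 a b' v) ^ 2 := by
      rw [← mul_assoc, key]; ring
    nlinarith [mul_neg_of_pos_of_neg ht hd, mul_nonneg ht' (sq_nonneg (det3 a b' v))]
  · exact (isCompact_par _ _ _ isCompact_tri).measurableSet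

lemma det3_projN (n a b : E3) : det3 (projN n a) (projN n b) n = det3 a b n := by
  simp only [det3, projN, PiLp.sub_apply, PiLp.smul_apply, smul_eq_mul]
  ring

lemma det3_sub (a b b' n : E3) : det3 a (b' - b) n = det3 a b' n - det3 a b n := by
  simp only [det3, PiLp.sub_apply]
  ring

lemma convex_image_projN {K : Set E3} (hK : Convex ℝ K) (n : E3) : Convex ℝ (projN n '' K) := by
  rintro _ ⟨x, hx, rfl⟩ _ ⟨y, hy, rfl⟩ α β hα hβ hαβ
  exact ⟨α • x + β • y, hK hx hy hα hβ hαβ, by rw [projN_add, projN_smul, projN_smul]⟩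

/-- lower bound for the projected area through two chords -/
lemma quad_le {K : Set E3} (hK : Convex ℝ K) {v : E3} (hv : ‖v‖ = 1) {P0 P1 P2 P3 : E3}
    (h0 : P0 ∈ K) (h1 : P1 ∈ K) (h2 : P2 ∈ K) (h3 : P3 ∈ K) :
    ENNReal.ofReal (|det3 (P1 - P0) (P3 - P2) v| / 2) ≤ μHE[2] (projN v '' K) := by
  have hv0 : v ≠ 0 := by intro h; rw [h] at hv; simp at hv
  have hC := convex_image_projN hK v
  have m0 : projN v P0 ∈ projN v '' K := mem_image_of_mem _ h0
  have mm : ∀ Q ∈ K, projN v P0 + projN v (Q - P0) ∈ projN v '' K := by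
    intro Q hQ
    rw [← projN_add, add_sub_cancel]
    exact mem_image_of_mem _ hQ
  have gg : ∀ Q : E3, gram (projN v (P1 - P0)) (projN v (Q - P0)) = |det3 (P1 - P0) (Q - P0) v| := by
    intro Q
    rw [gram_projN hv0, hv, div_one]
  have one : ∀ Q ∈ K, ENNReal.ofReal (|det3 (P1 - P0) (Q - P0) v| / 2) ≤ μHE[2] (projN v '' K) := by
    intro Q hQ
    rw [← gg, ← area_par_tri (projN v P0)]
    exact measure_mono (par_tri_subset hC m0 (mm _ h1) (mm _ hQ))
  have e : P3 - P2 = (P3 - P0) - (P2 - P0) := by abel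
  rw [e, det3_sub]
  set d := det3 (P1 - P0) (P2 - P0) v with hd
  set d' := det3 (P1 - P0) (P3 - P0) v with hd'
  by_cases hneg : d * d' < 0
  · have := two_tri hC m0 (mm _ h1) (mm _ h2) (mm _ h3) (v := v)
      (by rw [det3_projN, det3_projN]; exact hneg)
    refine le_trans (ENNReal.ofReal_le_ofReal ?_) this
    rw [gg, gg, ← hd, ← hd']
    have := abs_sub d' d
    linarith
  · push Not at hneg
    rcases le_total |d| |d'| with h | h
    · refine le_trans (ENNReal.ofReal_le_ofReal ?_) (one _ h3)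
      rw [← hd']
      have : |d' - d| ≤ |d'| := by
        rw [← sq_le_sq₀ (abs_nonneg _) (abs_nonneg _), sq_abs, sq_abs]
        have h' : |d| * |d| ≤ |d| * |d'| := by gcongr
        rw [← abs_mul, ← abs_mul, abs_of_nonneg hneg, abs_mul_self] at h'
        nlinarith
      linarith
    · refine le_trans (ENNReal.ofReal_le_ofReal ?_) (one _ h2)
      rw [← hd]
      have : |d' - d| ≤ |d| := by
        rw [← sq_le_sq₀ (abs_nonneg _) (abs_nonneg _), sq_abs, sq_abs]
        have h' : |d'| * |d'| ≤ |d| * |d'| := by gcongr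
        rw [← abs_mul, ← abs_mul, abs_of_nonneg hneg, abs_mul_self] at h'
        nlinarith
      linarith

lemma sqrt2_le_of (x y z T : ℝ) (hxyz : x ^ 2 + y ^ 2 + z ^ 2 = 1) (hx : 0 ≤ x) (hy : 0 ≤ y)
    (hz : 0 ≤ z) (h1 : z + Real.sqrt 2 * x ≤ T) (h2 : z + Real.sqrt 2 * y ≤ T) (h3 : 2 * z ≤ T)
    (h4 : Real.sqrt 2 * (x + y) ≤ T) : Real.sqrt 2 ≤ T := by
  have hs := sqrt2_pos
  have hq := sqrt2_sq
  set s := Real.sqrt 2
  by_contra hcon
  push Not at hcon
  have a1 : x + y < 1 := by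
    by_contra h
    push Not at h
    nlinarith
  have a2 : s * z < 1 := by nlinarith
  -- cube coordinates
  rcases le_total x y with h | h
  · have b1 : (x + y) ^ 2 ≤ x + y := by nlinarith
    have b2 : (y - x) ^ 2 ≤ y - x := by nlinarith
    have b3 : s * z ^ 2 ≤ z := by nlinarith
    have b4 : x ^ 2 + y ^ 2 ≤ y := by nlinarith
    nlinarith
  · have b1 : (x + y) ^ 2 ≤ x + y := by nlinarith
    have b2 : (x - y) ^ 2 ≤ x - y := by nlinarith
    have b3 : s * z ^ 2 ≤ z := by nlinarith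
    have b4 : x ^ 2 + y ^ 2 ≤ x := by nlinarith
    nlinarith

lemma isCompact_K0 : IsCompact K0 := by
  unfold K0
  exact Set.Finite.isCompact_convexHull _ (toFinite _)

lemma continuous_projN (n : E3) : Continuous (projN n) := by
  unfold projN; fun_prop

lemma area_projN_lt_top {K : Set E3} (hK : IsCompact K) {v : E3} (hv : v ≠ 0) :
    μHE[2] (projN v '' K) < ⊤ := by
  apply area_lt_top hv
  · rintro _ ⟨y, -, rfl⟩
    exact inner_projN hv y
  · exact (hK.image (continuous_projN v)).isBounded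

lemma abs_add_abs_le_of {p q T : ℝ} (h1 : |p + q| ≤ T) (h2 : |p - q| ≤ T) : |p| + |q| ≤ T := by
  rw [abs_le] at h1 h2
  rcases abs_cases p with ⟨hp, -⟩ | ⟨hp, -⟩ <;> rcases abs_cases q with ⟨hq, -⟩ | ⟨hq, -⟩ <;>
    linarith [h1.1, h1.2, h2.1, h2.2]

theorem sqrt2_le_area_proj {v : E3} (hv : ‖v‖ = 1) :
    ENNReal.ofReal (Real.sqrt 2) ≤ μHE[2] (projN v '' K0) := by
  have hv0 : v ≠ 0 := by intro h; rw [h] at hv; simp at hv
  have hfin := area_projN_lt_top isCompact_K0 hv0
  have hK : Convex ℝ K0 := convex_convexHull _ _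
  have hA : (!₂[1, 0, 0] : E3) ∈ K0 := subset_convexHull _ _ (by simp)
  have hB : (!₂[-1, 0, 0] : E3) ∈ K0 := subset_convexHull _ _ (by simp)
  have hC : (!₂[0, 1, Real.sqrt 2] : E3) ∈ K0 := subset_convexHull _ _ (by simp)
  have hD : (!₂[0, -1, Real.sqrt 2] : E3) ∈ K0 := subset_convexHull _ _ (by simp)
  set T := (μHE[2] (projN v '' K0)).toReal with hT
  have q : ∀ {P0 P1 P2 P3 : E3}, P0 ∈ K0 → P1 ∈ K0 → P2 ∈ K0 → P3 ∈ K0 → ∀ d : ℝ,
      det3 (P1 - P0) (P3 - P2) v = 2 * d → |d| ≤ T := by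
    intro P0 P1 P2 P3 h0 h1 h2 h3 d hd
    have := quad_le hK hv h0 h1 h2 h3
    rw [hd, abs_mul, abs_two] at this
    have := (ENNReal.ofReal_le_iff_le_toReal hfin.ne).1 this
    linarith
  have hs := sqrt2_pos
  have f1 := q hB hA hA hC (v 2 - Real.sqrt 2 * v 1) (by simp [det3]; norm_num)
  have f2 := q hA hB hA hD (v 2 + Real.sqrt 2 * v 1) (by simp [det3]; ring)
  have f3 := q hC hD hC hA (v 2 + Real.sqrt 2 * v 0) (by simp [det3]; ring)
  have f4 := q hD hC hC hB (v 2 - Real.sqrt 2 * v 0) (by simp [det3]; ring)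
  have f5 := q hA hB hC hD (2 * v 2) (by simp [det3]; ring)
  have f6 := q hA hC hB hD (Real.sqrt 2 * v 0 + Real.sqrt 2 * v 1) (by simp [det3]; ring)
  have f7 := q hD hA hB hC (Real.sqrt 2 * v 0 - Real.sqrt 2 * v 1) (by simp [det3]; ring)
  have g1 := abs_add_abs_le_of f2 f1
  have g2 := abs_add_abs_le_of f3 f4
  have g3 := abs_add_abs_le_of f6 f7
  rw [abs_mul, abs_of_pos hs] at g1 g2
  rw [abs_mul, abs_mul, abs_of_pos hs] at g3
  rw [abs_mul, abs_two] at f5
  rw [ENNReal.ofReal_le_iff_le_toReal hfin.ne]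
  refine sqrt2_le_of |v 0| |v 1| |v 2| T ?_ (abs_nonneg _) (abs_nonneg _) (abs_nonneg _) g2 g1 f5
    (by linarith)
  rw [sq_abs, sq_abs, sq_abs, ← normsq3, hv]; norm_num

/-- `projN` as a linear map -/
def projL (n : E3) : E3 →ₗ[ℝ] E3 where
  toFun := projN n
  map_add' := projN_add n
  map_smul' c x := projN_smul n x c

theorem area_proj_e0 :
    μHE[2] (projN (!₂[1, 0, 0] : E3) '' K0) = ENNReal.ofReal (Real.sqrt 2) := by
  have hn : ‖(!₂[1, 0, 0] : E3)‖ = 1 := by
    rw [← sq_eq_sq₀ (norm_nonneg _) zero_le_one, normsq3]; simp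
  have h1 : projN (!₂[1, 0, 0] : E3) '' K0 =
      convexHull ℝ {(0 : E3), !₂[0, 1, Real.sqrt 2], !₂[0, -1, Real.sqrt 2]} := by
    have := (projL (!₂[1, 0, 0] : E3)).image_convexHull
      {!₂[1, 0, 0], !₂[-1, 0, 0], !₂[0, 1, Real.sqrt 2], !₂[0, -1, Real.sqrt 2]}
    refine Eq.trans this ?_
    congr 1
    have e1 : projL (!₂[1, 0, 0] : E3) !₂[1, 0, 0] = 0 := by
      change projN _ _ = _
      rw [projN_unit hn, inner3]; ext k; fin_cases k <;> simp
    have e2 : projL (!₂[1, 0, 0] : E3) !₂[-1, 0, 0] = 0 := by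
      change projN _ _ = _
      rw [projN_unit hn, inner3]; ext k; fin_cases k <;> simp
    have e3 : projL (!₂[1, 0, 0] : E3) !₂[0, 1, Real.sqrt 2] = !₂[0, 1, Real.sqrt 2] := by
      change projN _ _ = _
      rw [projN_unit hn, inner3]; ext k; fin_cases k <;> simp
    have e4 : projL (!₂[1, 0, 0] : E3) !₂[0, -1, Real.sqrt 2] = !₂[0, -1, Real.sqrt 2] := by
      change projN _ _ = _
      rw [projN_unit hn, inner3]; ext k; fin_cases k <;> simp
    simp only [image_insert_eq, image_singleton, e1, e2, e3, e4, insert_idem]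
  rw [h1, area_triangle]
  congr 1
  have : gram ((!₂[0, 1, Real.sqrt 2] : E3) - 0) (!₂[0, -1, Real.sqrt 2] - 0) = 2 * Real.sqrt 2 := by
    rw [gram, Real.sqrt_eq_iff_mul_self_eq _ (by positivity)]
    · simp [normsq3, inner3]
      nlinarith [sqrt2_sq]
    · simp [normsq3, inner3]
      nlinarith [sqrt2_sq]
  rw [this]; ring

lemma projN_fun {v : E3} (hv : ‖v‖ = 1) : (fun y : E3 => y - inner ℝ y v • v) = projN v := by
  ext1 y; rw [projN_unit hv]

end Crest.Agent.R211

end
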