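import Mathlib

/-!
The real-variable inequalities behind the improved cylinder cover of the tetrahedron (row 211).
-/

set_option autoImplicit false

noncomputable section

namespace Crest.Agent.R211

/-- discrete intermediate value lemma -/
lemma exists_sign_change (F : ℕ → ℝ) (N : ℕ) (hN : 0 < N) (h0 : F 0 ≤ 0) (h1 : 0 ≤ F N) :
    ∃ i < N, F i ≤ 0 ∧ 0 ≤ F (i + 1) := by
  induction N with
  | zero => omega
  | succ n ih =>
    by_cases hn : F n ≤ 0
    · exact ⟨n, Nat.lt_succ_self n, hn, h1⟩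
    · push Not at hn
      have hpos : 0 < n := by
        rcases Nat.eq_zero_or_pos n with h | h
        · subst h; linarith
        · exact h
      obtain ⟨i, hi, h⟩ := ih hpos hn.le
      exact ⟨i, by omega, h⟩

/-- tilt parameter -/
def kap : ℝ := 1 / 1000
/-- number of wedges in each half -/
def NN : ℕ := 1000000
/-- mesh -/
def del : ℝ := 2 / 1000000
/-- partition points of `[-1,1]` -/
def tt (i : ℕ) : ℝ := -1 + i * del
/-- midpoints -/
def mm (i : ℕ) : ℝ := (tt i + tt (i + 1)) / 2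
/-- first tilt coefficient -/
def aa (i : ℕ) : ℝ := (1 + tt i * tt (i + 1)) / 2
/-- cap height as a function of the midpoint -/
def cap (m : ℝ) : ℝ := 1 / 2 + kap ^ 2 * (m ^ 2 / 4 + m ^ 4 / 4 + 1 / 400)

lemma tt_succ (i : ℕ) : tt (i + 1) = tt i + del := by
  simp only [tt]; push_cast; ring

lemma tt_zero : tt 0 = -1 := by simp [tt]

lemma tt_NN : tt NN = 1 := by simp only [tt, NN, del]; norm_num

lemma del_pos : 0 < del := by unfold del; norm_num

lemma tt_ge (i : ℕ) : -1 ≤ tt i := by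
  have := del_pos
  have h : (0 : ℝ) ≤ i := Nat.cast_nonneg i
  simp only [tt]; nlinarith

lemma tt_le {i : ℕ} (hi : i ≤ NN) : tt i ≤ 1 := by
  have h : (i : ℝ) ≤ 1000000 := by exact_mod_cast hi
  simp only [tt, del]; linarith

lemma tt_eq (i : ℕ) : tt i = mm i - del / 2 := by simp only [mm, tt_succ]; ring
lemma tt_succ_eq (i : ℕ) : tt (i + 1) = mm i + del / 2 := by simp only [mm, tt_succ]; ring
lemma aa_eq (i : ℕ) : aa i = (1 + mm i ^ 2 - del ^ 2 / 4) / 2 := by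
  rw [aa, tt_succ_eq, tt_eq]; ring

lemma mm_abs {i : ℕ} (hi : i < NN) : -1 ≤ mm i ∧ mm i ≤ 1 := by
  have h1 := tt_ge i
  have h2 := tt_ge (i + 1)
  have h3 := tt_le hi.le
  have h4 := tt_le (i := i + 1) hi
  simp only [mm]; constructor <;> linarith

lemma cap_pos (m : ℝ) : 0 < cap m := by unfold cap; positivity

/-- a point of the sector lies in one of the wedges -/
lemma exists_wedge (k x y ζ : ℝ) (hy : |y| ≤ ζ) :
    ∃ i < NN, tt i * (ζ + k * mm i * x) ≤ y + k * aa i * x ∧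
      y + k * aa i * x ≤ tt (i + 1) * (ζ + k * mm i * x) := by
  obtain ⟨i, hi, h1, h2⟩ := exists_sign_change
    (fun i => tt i * ζ + k * x * (tt i ^ 2 - 1) / 2 - y) NN (by unfold NN; norm_num)
    (by simp only [tt_zero]; have := abs_le.1 hy; linarith [this.1])
    (by simp only [tt_NN]; have := abs_le.1 hy; linarith [this.2])
  refine ⟨i, hi, ?_, ?_⟩
  · simp only [mm, aa]; linarith
  · simp only [mm, aa]; linarith

/-- the key covering inequality -/
lemma key_ineq (m n x y ζ : ℝ) (hm : -1 ≤ m ∧ m ≤ 1) (hn : -1 ≤ n ∧ n ≤ 1)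
    (hx : |x| ≤ 1 - ζ) (hy : |y| ≤ ζ) (a b Z Z' Y X : ℝ)
    (ha : a = (1 + m ^ 2 - del ^ 2 / 4) / 2) (hb : b = (1 + n ^ 2 - del ^ 2 / 4) / 2)
    (hZ : Z = ζ + kap * m * x) (hY : Y = y + kap * a * x)
    (hZ' : Z' = (1 - ζ) + (-kap) * n * y) (hX : X = x + (-kap) * b * y)
    (h1 : (m - del / 2) * Z ≤ Y) (h2 : Y ≤ (m + del / 2) * Z)
    (h3 : (n - del / 2) * Z' ≤ X) (h4 : X ≤ (n + del / 2) * Z') :
    Z ≤ cap m ∨ Z' ≤ cap n := by
  by_contra hcon
  push Not at hcon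
  obtain ⟨hc1, hc2⟩ := hcon
  have hm2 : m ^ 2 ≤ 1 := by nlinarith [hm.1, hm.2]
  have hn2 : n ^ 2 ≤ 1 := by nlinarith [hn.1, hn.2]
  have hma : |m| ≤ 1 := abs_le.2 hm
  have hna : |n| ≤ 1 := abs_le.2 hn
  have ha0 : 0 ≤ a := by rw [ha]; unfold del; nlinarith [sq_nonneg m]
  have hb0 : 0 ≤ b := by rw [hb]; unfold del; nlinarith [sq_nonneg n]
  have ha1 : a ≤ (1 + m ^ 2) / 2 := by rw [ha]; nlinarith [sq_nonneg del]
  have hb1 : b ≤ (1 + n ^ 2) / 2 := by rw [hb]; nlinarith [sq_nonneg del]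
  have ha2 : a ≤ 1 := by linarith
  have hb2 : b ≤ 1 := by linarith
  set D := m * x - n * y with hD
  have hD1 : D ≤ 1 := by
    have e1 : m * x ≤ |x| := by
      calc m * x ≤ |m * x| := le_abs_self _
        _ = |m| * |x| := abs_mul _ _
        _ ≤ 1 * |x| := by gcongr
        _ = |x| := one_mul _
    have e2 : -(n * y) ≤ |y| := by
      calc -(n * y) ≤ |n * y| := neg_le_abs _
        _ = |n| * |y| := abs_mul _ _
        _ ≤ 1 * |y| := by gcongr
        _ = |y| := one_mul _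
    linarith
  set u := Z - 1 / 2 with hu
  set u' := Z' - 1 / 2 with hu'
  have hsum : u + u' = kap * D := by rw [hu, hu', hZ, hZ', hD]; ring
  set P := (m ^ 2 + n ^ 2) / 4 + m ^ 2 * n ^ 2 / 2 with hP
  have hP1 : P ≤ 1 := by rw [hP]; nlinarith [sq_nonneg m, sq_nonneg n]
  have hP0 : 0 ≤ P := by rw [hP]; positivity
  have hk : kap = 1 / 1000 := rfl
  have hd : del = 2 / 1000000 := rfl
  have hu0 : 0 ≤ u := by
    have : 0 ≤ kap ^ 2 * (m ^ 2 / 4 + m ^ 4 / 4 + 1 / 400) := by positivity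
    unfold cap at hc1; linarith
  have hu0' : 0 ≤ u' := by
    have : 0 ≤ kap ^ 2 * (n ^ 2 / 4 + n ^ 4 / 4 + 1 / 400) := by positivity
    unfold cap at hc2; linarith
  have hlow : kap * (P + 1 / 200) < D := by
    unfold cap at hc1 hc2
    have e : m ^ 2 * n ^ 2 / 2 ≤ m ^ 4 / 4 + n ^ 4 / 4 := by nlinarith [sq_nonneg (m ^ 2 - n ^ 2)]
    rw [hk] at hc1 hc2 hsum ⊢
    rw [hP]
    linarith
  set e1 := Y - m * Z with he1
  set e2 := X - n * Z' with he2
  have hZ0 : 0 ≤ Z := by linarith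
  have hZ0' : 0 ≤ Z' := by linarith
  have he1a : |e1| ≤ del / 2 * Z := by rw [abs_le]; constructor <;> linarith
  have he2a : |e2| ≤ del / 2 * Z' := by rw [abs_le]; constructor <;> linarith
  have hid : D * (1 + kap ^ 2 * (a * b)) = m * n * (u' - u) + (m + kap * (n * a)) * e2 +
      (kap * (m * b) - n) * e1 + kap * (m ^ 2 * b * Z + n ^ 2 * a * Z') := by
    rw [hu, hu', he1, he2, hD, hX, hY]; ring
  have hZu : Z = 1 / 2 + u := by rw [hu]; ring
  have hZu' : Z' = 1 / 2 + u' := by rw [hu']; ring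
  clear_value D u u' e1 e2
  have t1 : m * n * (u' - u) ≤ kap * D := by
    rw [← hsum]
    calc m * n * (u' - u) ≤ |m * n * (u' - u)| := le_abs_self _
      _ = |m| * |n| * |u' - u| := by rw [abs_mul, abs_mul]
      _ ≤ 1 * 1 * (u + u') := by
          gcongr
          rw [abs_le]; constructor <;> linarith
      _ = u + u' := by ring
  have c1 : |m + kap * (n * a)| ≤ 1 + kap := by
    have : |n * a| ≤ 1 := by
      rw [abs_mul, abs_of_nonneg ha0]
      calc |n| * a ≤ 1 * 1 := by gcongr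
        _ = 1 := one_mul _
    have h' := abs_le.1 this
    rw [abs_le, hk]; constructor <;> linarith [hm.1, hm.2, h'.1, h'.2]
  have c2 : |kap * (m * b) - n| ≤ 1 + kap := by
    have : |m * b| ≤ 1 := by
      rw [abs_mul, abs_of_nonneg hb0]
      calc |m| * b ≤ 1 * 1 := by gcongr
        _ = 1 := one_mul _
    have h' := abs_le.1 this
    rw [abs_le, hk]; constructor <;> linarith [hn.1, hn.2, h'.1, h'.2]
  have hk0 : 0 ≤ 1 + kap := by rw [hk]; norm_num
  have t2 : (m + kap * (n * a)) * e2 ≤ (1 + kap) * (del / 2 * Z') := by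
    calc _ ≤ |(m + kap * (n * a)) * e2| := le_abs_self _
      _ = |m + kap * (n * a)| * |e2| := abs_mul _ _
      _ ≤ _ := by gcongr
  have t3 : (kap * (m * b) - n) * e1 ≤ (1 + kap) * (del / 2 * Z) := by
    calc _ ≤ |(kap * (m * b) - n) * e1| := le_abs_self _
      _ = |kap * (m * b) - n| * |e1| := abs_mul _ _
      _ ≤ _ := by gcongr
  have t4 : m ^ 2 * b * Z ≤ m ^ 2 * (1 + n ^ 2) / 4 + u := by
    rw [hZu]
    have q1 : m ^ 2 * b ≤ m ^ 2 * ((1 + n ^ 2) / 2) := by gcongr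
    have q2 : m ^ 2 * b ≤ 1 := by
      calc m ^ 2 * b ≤ 1 * 1 := by gcongr
        _ = 1 := one_mul _
    have q3 := mul_le_mul_of_nonneg_right q2 hu0
    linarith only [q1, q3]
  have t5 : n ^ 2 * a * Z' ≤ n ^ 2 * (1 + m ^ 2) / 4 + u' := by
    rw [hZu']
    have q1 : n ^ 2 * a ≤ n ^ 2 * ((1 + m ^ 2) / 2) := by gcongr
    have q2 : n ^ 2 * a ≤ 1 := by
      calc n ^ 2 * a ≤ 1 * 1 := by gcongr
        _ = 1 := one_mul _
    have q3 := mul_le_mul_of_nonneg_right q2 hu0'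
    linarith only [q1, q3]
  have hD0 : 0 ≤ D := by rw [hk] at hlow; linarith
  have t6 : D ≤ D * (1 + kap ^ 2 * (a * b)) := by
    have : 0 ≤ D * (kap ^ 2 * (a * b)) := by positivity
    linarith
  have t7 : m ^ 2 * b * Z + n ^ 2 * a * Z' ≤ P + kap * D := by
    rw [hP, ← hsum]; linarith
  have hZZ : Z + Z' = 1 + kap * D := by rw [← hsum, hZu, hZu']; ring
  have t8 : D ≤ kap * D + (1 + kap) * (del / 2 * Z') + (1 + kap) * (del / 2 * Z)
      + kap * (P + kap * D) := by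
    have : kap * (m ^ 2 * b * Z + n ^ 2 * a * Z') ≤ kap * (P + kap * D) :=
      mul_le_mul_of_nonneg_left t7 (by rw [hk]; norm_num)
    linarith only [t1, t2, t3, t6, hid, this]
  rw [hk] at hlow hZZ
  rw [hk, hd] at t8
  linarith only [t8, hlow, hZZ, hD1, hP1, hP0]

/-- primitive used for the telescoping bound -/
def GG (t : ℝ) : ℝ := t / 4 + kap ^ 2 * (-(6 / 100) * t ^ 3 / 3 + (22 / 100) * t ^ 5 / 5 - (28 / 1000) * t)

lemma cost_le (m a : ℝ) (hm : -1 ≤ m ∧ m ≤ 1) (ha : a = (1 + m ^ 2 - del ^ 2 / 4) / 2) :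
    del * cap m ^ 2 / Real.sqrt (1 + kap ^ 2 * (a ^ 2 + 2 * m ^ 2)) ≤
      GG (m + del / 2) - GG (m - del / 2) := by
  have hk : kap = 1 / 1000 := rfl
  have hd : del = 2 / 1000000 := rfl
  have hm2 : m ^ 2 ≤ 1 := by nlinarith [hm.1, hm.2]
  have hm0 : 0 ≤ m ^ 2 := sq_nonneg m
  have ha0 : 0 ≤ a := by rw [ha, hd]; nlinarith
  have ha1 : a ≤ 1 := by rw [ha, hd]; nlinarith
  set u := kap ^ 2 * (a ^ 2 + 2 * m ^ 2) with hu
  have hu0 : 0 ≤ u := by positivity
  have hu1 : u ≤ 3 / 1000000 := by rw [hu, hk]; nlinarith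
  have hs : 1 / Real.sqrt (1 + u) ≤ 1 - 499 / 1000 * u := by
    have hpos : 0 < 1 - 499 / 1000 * u := by linarith
    rw [div_le_iff₀ (Real.sqrt_pos.2 (by linarith)), ← div_le_iff₀' hpos]
    apply Real.le_sqrt_of_sq_le
    rw [div_pow, div_le_iff₀ (by positivity)]
    nlinarith [mul_nonneg hu0 hu0, mul_nonneg hu0 (mul_nonneg hu0 hu0)]
  set r := m ^ 2 / 4 + m ^ 4 / 4 + 1 / 400 with hr
  have hm4 : m ^ 4 ≤ 1 := by nlinarith
  have hm40 : 0 ≤ m ^ 4 := by positivity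
  have hr0 : 0 ≤ r := by positivity
  have hr1 : r ≤ 1 := by rw [hr]; linarith
  have hcap : cap m = 1 / 2 + kap ^ 2 * r := rfl
  have h1 : cap m ^ 2 / Real.sqrt (1 + u) ≤ cap m ^ 2 * (1 - 499 / 1000 * u) := by
    rw [div_eq_mul_one_div]; gcongr
  have h2 : cap m ^ 2 * (1 - 499 / 1000 * u) ≤
      1 / 4 + kap ^ 2 * r + kap ^ 4 - 499 / 4000 * u := by
    rw [hcap]
    have e1 : r ^ 2 ≤ 1 := by nlinarith
    have e2 : 0 ≤ (kap ^ 2 * r + kap ^ 4 * r ^ 2) * u := by positivity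
    have e3 : kap ^ 4 * r ^ 2 ≤ kap ^ 4 := by
      have : 0 ≤ kap ^ 4 := by positivity
      nlinarith
    nlinarith
  have h3 : (1 + m ^ 2) ^ 2 / 4 - del ^ 2 / 4 ≤ a ^ 2 := by
    rw [ha, hd]; nlinarith
  have h4 : GG (m + del / 2) - GG (m - del / 2) = del * (1 / 4 + kap ^ 2 *
      (-(6 / 100) * (m ^ 2 + del ^ 2 / 12) + (22 / 100) * (m ^ 4 + del ^ 2 * m ^ 2 / 2 + del ^ 4 / 80)
        - 28 / 1000)) := by
    unfold GG; ring
  rw [h4, mul_div_assoc]
  have := del_pos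
  gcongr
  refine h1.trans (h2.trans ?_)
  rw [hu, hr, hk, hd] at *
  nlinarith

lemma sum_cost_le :
    ∑ i ∈ Finset.range NN, del * cap (mm i) ^ 2 / Real.sqrt (1 + kap ^ 2 * (aa i ^ 2 + 2 * mm i ^ 2))
      ≤ 1 / 2 - 8 / 1000000000 := by
  calc _ ≤ ∑ i ∈ Finset.range NN, (GG (tt (i + 1)) - GG (tt i)) := by
        apply Finset.sum_le_sum
        intro i hi
        rw [tt_succ_eq, tt_eq]
        exact cost_le _ _ (mm_abs (Finset.mem_range.1 hi)) (aa_eq i)
    _ = GG (tt NN) - GG (tt 0) := Finset.sum_range_sub (fun i => GG (tt i)) NN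
    _ = 1 / 2 - 8 / 1000000000 := by
        rw [tt_NN, tt_zero]; unfold GG kap; norm_num

end Crest.Agent.R211

end
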