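import Mathlib

set_option autoImplicit false
open MeasureTheory Set Metric
open scoped ENNReal NNReal Topology

namespace Crest.Agent.R211A

abbrev E := EuclideanSpace ℝ (Fin 2)

noncomputable def J (h : ℝ) (g : E) : ℝ := 1 / Real.sqrt (1 + (g 0) ^ 2 + h ^ 2 * (g 1) ^ 2)

lemma one_le_sqrt (h : ℝ) (g : E) : 1 ≤ Real.sqrt (1 + (g 0) ^ 2 + h ^ 2 * (g 1) ^ 2) := by
  apply Real.one_le_sqrt.2
  have := sq_nonneg (g 0)
  have : 0 ≤ h ^ 2 * (g 1) ^ 2 := by positivity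
  linarith

lemma J_pos (h : ℝ) (g : E) : 0 < J h g := by
  have := one_le_sqrt h g
  unfold J
  apply one_div_pos.2
  linarith

lemma J_le_one (h : ℝ) (g : E) : J h g ≤ 1 := by
  have := one_le_sqrt h g
  unfold J
  rw [div_le_one (by linarith)]
  exact this

lemma continuous_J (h : ℝ) : Continuous (J h) := by
  unfold J
  refine continuous_const.div (by fun_prop) fun g => ?_
  have := one_le_sqrt h g
  linarith

def sq (c : E) (r : ℝ) : Set E := {ξ | ∀ i, |ξ i - c i| ≤ r}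

def cyl (K : Set E) (g : E) : Set (ℝ × E) := {z | z.2 - z.1 • g ∈ K}

noncomputable def cost (h : ℝ) (q : E × ℝ × E) : ℝ := (2 * q.2.1) ^ 2 * J h q.2.2

lemma cost_nonneg (h : ℝ) (q : E × ℝ × E) : 0 ≤ cost h q :=
  mul_nonneg (sq_nonneg _) (J_pos h _).le

noncomputable def m (h : ℝ) (Z : Set (ℝ × E)) : ℝ≥0∞ :=
  ⨅ (q : E × ℝ × E) (_ : 0 < q.2.1 ∧ Z ⊆ cyl (sq q.1 q.2.1) q.2.2), ENNReal.ofReal (cost h q)

lemma m_empty (h : ℝ) : m h ∅ = 0 := by
  apply le_antisymm _ zero_le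
  apply ENNReal.le_of_forall_pos_le_add
  intro ε hε _
  rw [zero_add]
  have hε' : (0 : ℝ) < ε := hε
  refine iInf_le_of_le ((0 : E), Real.sqrt ε / 2, (0 : E)) (iInf_le_of_le
    ⟨by positivity, empty_subset _⟩ ?_)
  rw [← ENNReal.ofReal_coe_nnreal]
  apply ENNReal.ofReal_le_ofReal
  simp only [cost]
  have h1 : (2 * (Real.sqrt ε / 2)) ^ 2 = ε := by
    rw [mul_div_cancel₀ _ (two_ne_zero), Real.sq_sqrt hε'.le]
  rw [h1]
  have := J_le_one h 0
  nlinarith

noncomputable def nu (h : ℝ) : OuterMeasure (ℝ × E) := OuterMeasure.ofFunction (m h) (m_empty h)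

lemma nu_sq (h : ℝ) (c : E) (r : ℝ) (hr : 0 < r) (g : E) :
    nu h (cyl (sq c r) g) ≤ ENNReal.ofReal ((2 * r) ^ 2 * J h g) := by
  refine (OuterMeasure.ofFunction_le _).trans ?_
  exact iInf_le_of_le (c, r, g) (iInf_le_of_le ⟨hr, subset_rfl⟩ le_rfl)

lemma nu_cyl (h : ℝ) (K : Set E) (hK : MeasurableSet K) (g : E) :
    nu h (cyl K g) ≤ volume K * ENNReal.ofReal (J h g) := by
  apply ENNReal.le_of_forall_pos_le_add
  intro ε hε _
  set K' : Set (Fin 2 → ℝ) := (WithLp.toLp 2) ⁻¹' K with hK'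
  have hvol : volume K' = volume K :=
    (PiLp.volume_preserving_toLp (Fin 2)).measure_preimage hK.nullMeasurableSet
  obtain ⟨t, r, htc, -, hr, hcov, hsum⟩ :=
    Besicovitch.exists_closedBall_covering_tsum_measure_le (volume : Measure (Fin 2 → ℝ))
      (ε := ε) (by exact_mod_cast hε.ne') (fun _ => Ioi 0) K'
      (fun x _ δ hδ => ⟨δ / 2, by simp only [mem_Ioi]; linarith, by constructor <;> linarith⟩)
  have hsub : cyl K g ⊆ ⋃ x ∈ t, cyl (sq (WithLp.toLp 2 x) (r x)) g := by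
    intro z hz
    have h1 : WithLp.ofLp (z.2 - z.1 • g) ∈ K' := by
      exact hz
    obtain ⟨x, hx, h2⟩ := mem_iUnion₂.1 (hcov h1)
    refine mem_iUnion₂.2 ⟨x, hx, fun i => ?_⟩
    have h3 := (dist_pi_le_iff (le_of_lt (hr x hx))).1 (mem_closedBall.1 h2) i
    rw [Real.dist_eq] at h3
    exact h3
  calc nu h (cyl K g) ≤ nu h (⋃ x ∈ t, cyl (sq (WithLp.toLp 2 x) (r x)) g) := measure_mono hsub
    _ ≤ ∑' x : t, nu h (cyl (sq (WithLp.toLp 2 (x : Fin 2 → ℝ)) (r x)) g) :=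
        measure_biUnion_le _ htc _
    _ ≤ ∑' x : t, volume (closedBall (x : Fin 2 → ℝ) (r x)) * ENNReal.ofReal (J h g) := by
        apply ENNReal.tsum_le_tsum
        intro x
        have hx : 0 < r x := hr x x.2
        refine (nu_sq h _ _ hx g).trans (le_of_eq ?_)
        rw [Real.volume_pi_closedBall _ hx.le, Fintype.card_fin,
          ENNReal.ofReal_mul (sq_nonneg _)]
    _ = (∑' x : t, volume (closedBall (x : Fin 2 → ℝ) (r x))) * ENNReal.ofReal (J h g) :=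
        ENNReal.tsum_mul_right
    _ ≤ (volume K + ε) * ENNReal.ofReal (J h g) := by
        rw [← hvol]; gcongr
    _ ≤ volume K * ENNReal.ofReal (J h g) + ε := by
        rw [add_mul]
        gcongr
        calc (ε : ℝ≥0∞) * ENNReal.ofReal (J h g) ≤ ε * 1 := by
              gcongr
              exact ENNReal.ofReal_le_one.2 (J_le_one h g)
          _ = ε := mul_one _

/-- From the outer measure to a finite family of squares. -/
theorem extract (h : ℝ) (Z : Set (ℝ × E)) (hZ : IsCompact Z) (I : ℝ) (hI : 0 ≤ I)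
    (hnu : nu h Z ≤ ENNReal.ofReal I) (ε : ℝ) (hε : 0 < ε) :
    ∃ (k : ℕ) (q : Fin k → E × ℝ × E), (∀ i, 0 < (q i).2.1) ∧
      Z ⊆ ⋃ i, cyl (sq (q i).1 (q i).2.1) (q i).2.2 ∧ ∑ i, cost h (q i) ≤ I + ε := by
  have h1 : nu h Z < ENNReal.ofReal (I + ε / 4) :=
    hnu.trans_lt ((ENNReal.ofReal_lt_ofReal_iff (by linarith)).2 (by linarith))
  rw [nu, OuterMeasure.ofFunction_apply] at h1
  obtain ⟨t, h1⟩ := iInf_lt_iff.1 h1
  obtain ⟨ht, h1⟩ := iInf_lt_iff.1 h1
  obtain ⟨δ, hδ, hδs⟩ := ENNReal.exists_pos_sum_of_countable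
    (ε := ENNReal.ofReal (ε / 4)) (by simp only [ne_eq, ENNReal.ofReal_eq_zero, not_le]; linarith) ℕ
  have h2 : ∀ n, ∃ q : E × ℝ × E, (0 < q.2.1 ∧ t n ⊆ cyl (sq q.1 q.2.1) q.2.2) ∧
      ENNReal.ofReal (cost h q) < m h (t n) + δ n := by
    intro n
    have hfin : m h (t n) ≠ ∞ :=
      ne_top_of_lt ((ENNReal.le_tsum (f := fun n => m h (t n)) n).trans_lt h1)
    have h3 : m h (t n) < m h (t n) + δ n :=
      ENNReal.lt_add_right hfin (by exact_mod_cast (hδ n).ne')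
    conv_lhs at h3 => rw [m]
    obtain ⟨q, h3⟩ := iInf_lt_iff.1 h3
    obtain ⟨hq, h3⟩ := iInf_lt_iff.1 h3
    exact ⟨q, hq, h3⟩
  choose q hq hqc using h2
  have hsum : ∑' n, ENNReal.ofReal (cost h (q n)) ≤ ENNReal.ofReal (I + ε / 2) := by
    calc ∑' n, ENNReal.ofReal (cost h (q n)) ≤ ∑' n, (m h (t n) + δ n) :=
          ENNReal.tsum_le_tsum fun n => (hqc n).le
      _ = ∑' n, m h (t n) + ∑' n, (δ n : ℝ≥0∞) := ENNReal.tsum_add
      _ ≤ ENNReal.ofReal (I + ε / 4) + ENNReal.ofReal (ε / 4) := add_le_add h1.le hδs.le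
      _ = ENNReal.ofReal (I + ε / 2) := by
          rw [← ENNReal.ofReal_add (by linarith) (by linarith)]; congr 1; ring
  -- enlargement factor
  obtain ⟨lam, hlam1, hlam2⟩ : ∃ lam : ℝ, 1 < lam ∧ lam ^ 2 * (I + ε / 2) ≤ I + ε := by
    refine ⟨Real.sqrt ((I + ε) / (I + ε / 2)), ?_, ?_⟩
    · rw [Real.lt_sqrt (by norm_num), one_pow, one_lt_div (by linarith)]; linarith
    · rw [Real.sq_sqrt (by positivity), div_mul_cancel₀ _ (by linarith)]
  let O : ℕ → Set (ℝ × E) := fun n =>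
    {z | ∀ i, |(z.2 - z.1 • (q n).2.2) i - (q n).1 i| < lam * (q n).2.1}
  have hO : ∀ n, IsOpen (O n) := by
    intro n
    have : O n = ⋂ i, {z : ℝ × E | |(z.2 - z.1 • (q n).2.2) i - (q n).1 i| < lam * (q n).2.1} := by
      ext z; simp [O]
    rw [this]
    exact isOpen_iInter_of_finite fun i => isOpen_lt (by fun_prop) continuous_const
  have hcov : Z ⊆ ⋃ n, O n := by
    intro z hz
    obtain ⟨n, hn⟩ := mem_iUnion.1 (ht hz)
    refine mem_iUnion.2 ⟨n, fun i => ?_⟩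
    have h3 := (hq n).2 hn i
    have h4 := (hq n).1
    nlinarith
  obtain ⟨F, hF⟩ := hZ.elim_finite_subcover O hO hcov
  let e := F.equivFin.symm
  refine ⟨F.card, fun i => ((q (e i)).1, lam * (q (e i)).2.1, (q (e i)).2.2), fun i => ?_, ?_, ?_⟩
  · have := (hq (e i)).1
    positivity
  · intro z hz
    obtain ⟨n, hn, hzn⟩ := mem_iUnion₂.1 (hF hz)
    refine mem_iUnion.2 ⟨e.symm ⟨n, hn⟩, fun i => ?_⟩
    simp only [Equiv.apply_symm_apply]
    exact (hzn i).le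
  · have h3 : ∑ i : Fin F.card, cost h ((q (e i)).1, lam * (q (e i)).2.1, (q (e i)).2.2)
        = lam ^ 2 * ∑ n ∈ F, cost h (q n) := by
      rw [← Finset.sum_coe_sort F, ← Equiv.sum_comp e, Finset.mul_sum]
      refine Finset.sum_congr rfl fun i _ => ?_
      simp only [cost]; ring
    rw [h3]
    have h4 : ∑ n ∈ F, cost h (q n) ≤ I + ε / 2 := by
      rw [← ENNReal.ofReal_le_ofReal_iff (by linarith),
        ENNReal.ofReal_sum_of_nonneg fun n _ => cost_nonneg h _]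
      exact (ENNReal.sum_le_tsum F).trans hsum
    calc _ ≤ lam ^ 2 * (I + ε / 2) := by gcongr
      _ ≤ _ := hlam2

end Crest.Agent.R211A
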