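import Mathlib
import Crest.Agent.R211.RuledCost

set_option autoImplicit false
open MeasureTheory Set Metric
open scoped ENNReal NNReal Topology

namespace Crest.Agent.R211A

/-- almost invariant shapes for the family `I + s A`, `|s| ≤ L`. -/
def Shape (A : E → E) (L : ℝ) : Prop :=
  ∀ η : ℝ, 0 < η → ∃ Q Q' : Set E, IsCompact Q ∧ Q ∈ 𝓝 (0 : E) ∧ IsCompact Q' ∧
    (∀ q ∈ Q, ∀ s : ℝ, |s| ≤ L → q + s • A q ∈ Q') ∧
    volume Q' ≤ ENNReal.ofReal (1 + η) * volume Q

def rect (α β : ℝ) : Set E := {q | |q 0| ≤ α ∧ |q 1| ≤ β}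

lemma vol_rect (α β : ℝ) (hα : 0 ≤ α) : volume (rect α β) = ENNReal.ofReal (4 * α * β) := by
  have h : rect α β = (WithLp.ofLp : E → (Fin 2 → ℝ)) ⁻¹' (Set.Icc ![-α, -β] ![α, β]) := by
    ext x
    simp only [rect, mem_ofPred_eq, mem_preimage, mem_Icc, Pi.le_def, Fin.forall_fin_two,
      Matrix.cons_val_zero, Matrix.cons_val_one, abs_le]
    tauto
  rw [h, (PiLp.volume_preserving_ofLp (Fin 2)).measure_preimage
    measurableSet_Icc.nullMeasurableSet, Real.volume_Icc_pi, Fin.prod_univ_two]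
  simp only [Matrix.cons_val_zero, Matrix.cons_val_one]
  rw [← ENNReal.ofReal_mul (by linarith)]
  congr 1; ring

lemma isClosed_rect (α β : ℝ) : IsClosed (rect α β) :=
  IsClosed.inter (s₁ := {q : E | |q 0| ≤ α}) (s₂ := {q : E | |q 1| ≤ β})
    (isClosed_le (by fun_prop) continuous_const) (isClosed_le (by fun_prop) continuous_const)

lemma isCompact_rect (α β : ℝ) : IsCompact (rect α β) := by
  apply Metric.isCompact_of_isClosed_isBounded (isClosed_rect α β)
  rw [isBounded_iff_forall_norm_le]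
  refine ⟨α + β, fun q hq => ?_⟩
  rw [EuclideanSpace.norm_eq, Fin.sum_univ_two]
  have h0 := abs_nonneg (q 0)
  have h1 := abs_nonneg (q 1)
  have h2 := hq.1
  have h3 := hq.2
  apply Real.sqrt_le_iff.2 ⟨by linarith, ?_⟩
  rw [Real.norm_eq_abs, Real.norm_eq_abs]
  nlinarith

lemma rect_mem_nhds (α β : ℝ) (hα : 0 < α) (hβ : 0 < β) : rect α β ∈ 𝓝 (0 : E) := by
  have : IsOpen {q : E | |q 0| < α ∧ |q 1| < β} :=
    IsOpen.inter (s := {q : E | |q 0| < α}) (t := {q : E | |q 1| < β})
      (isOpen_lt (by fun_prop) continuous_const) (isOpen_lt (by fun_prop) continuous_const)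
  refine Filter.mem_of_superset (this.mem_nhds ⟨by simpa, by simpa⟩) ?_
  intro q hq
  exact ⟨hq.1.le, hq.2.le⟩

lemma growth (a : ℕ → ℝ≥0∞) (C : ℝ) (h0 : 0 < a 0) (hC : ∀ k, a k ≤ ENNReal.ofReal (C * (k + 1)))
    (η : ℝ) (hη : 0 < η) : ∃ k, a (k + 1) ≤ ENNReal.ofReal (1 + η) * a k := by
  by_contra hcon
  push Not at hcon
  have hfin : ∀ k, a k ≠ ∞ := fun k => ne_top_of_le_ne_top ENNReal.ofReal_ne_top (hC k)
  have h1 : ∀ k, (1 + η) ^ k * (a 0).toReal ≤ (a k).toReal := by
    intro k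
    induction k with
    | zero => simp
    | succ k ih =>
      have h2 := ENNReal.toReal_mono (hfin (k + 1)) (hcon k).le
      rw [ENNReal.toReal_mul, ENNReal.toReal_ofReal (by linarith)] at h2
      calc (1 + η) ^ (k + 1) * (a 0).toReal = (1 + η) * ((1 + η) ^ k * (a 0).toReal) := by ring
        _ ≤ (1 + η) * (a k).toReal := by gcongr
        _ ≤ _ := h2
  have ha0 : 0 < (a 0).toReal := ENNReal.toReal_pos h0.ne' (hfin 0)
  have hC0 : 0 ≤ C := by
    by_contra hneg
    have := hC 0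
    rw [ENNReal.ofReal_of_nonpos (by simp; linarith)] at this
    exact absurd h0 (not_lt.2 this)
  have h2 : ∀ k : ℕ, (a k).toReal ≤ C * (k + 1) := fun k =>
    ENNReal.toReal_le_of_le_ofReal (by positivity) (hC k)
  have h3 := tendsto_pow_const_div_const_pow_of_one_lt 1 (show 1 < 1 + η by linarith)
  have h4 := tendsto_pow_const_div_const_pow_of_one_lt 0 (show 1 < 1 + η by linarith)
  have h5 := (h3.add h4).const_mul C
  simp only [add_zero, mul_zero] at h5
  obtain ⟨k, hk⟩ := (h5.eventually (gt_mem_nhds ha0)).exists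
  have hp : 0 < (1 + η) ^ k := by positivity
  have h6 : C * ((k : ℝ) ^ 1 / (1 + η) ^ k + (k : ℝ) ^ 0 / (1 + η) ^ k)
      = C * (k + 1) / (1 + η) ^ k := by
    field_simp
  rw [h6, div_lt_iff₀ hp] at hk
  have := h1 k
  have := h2 k
  nlinarith

def cross (k : ℕ) : Set E := {q | |q 0 * q 1| ≤ 1} ∩ rect (2 ^ k) (2 ^ k)

lemma isCompact_cross (k : ℕ) : IsCompact (cross k) :=
  (isCompact_rect _ _).inter_left (isClosed_le (by fun_prop) continuous_const)

lemma cross_mem_nhds (k : ℕ) : cross k ∈ 𝓝 (0 : E) := by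
  refine Filter.mem_of_superset (rect_mem_nhds 1 1 one_pos one_pos) ?_
  intro q hq
  have h1 : (1 : ℝ) ≤ 2 ^ k := one_le_pow₀ (by norm_num)
  refine ⟨?_, hq.1.trans h1, hq.2.trans h1⟩
  change |q 0 * q 1| ≤ 1
  rw [abs_mul]
  exact mul_le_one₀ hq.1 (abs_nonneg _) hq.2

lemma vol_cross (k : ℕ) : volume (cross k) ≤ ENNReal.ofReal (16 * (k + 1)) := by
  induction k with
  | zero =>
    refine (measure_mono inter_subset_right).trans ?_
    rw [vol_rect _ _ (by positivity)]
    apply ENNReal.ofReal_le_ofReal; norm_num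
  | succ k ih =>
    have hp : (0 : ℝ) < 2 ^ k := by positivity
    have hsub : cross (k + 1) ⊆
        cross k ∪ (rect (2 ^ (k + 1)) (2 ^ k)⁻¹ ∪ rect (2 ^ k)⁻¹ (2 ^ (k + 1))) := by
      rintro q ⟨h1, h2, h3⟩
      have h1' : |q 0| * |q 1| ≤ 1 := by rw [← abs_mul]; exact h1
      by_cases ha : |q 0| ≤ 2 ^ k
      · by_cases hb : |q 1| ≤ 2 ^ k
        · exact Or.inl ⟨h1, ha, hb⟩
        · refine Or.inr (Or.inr ⟨?_, h3⟩)
          rw [inv_eq_one_div, le_div_iff₀ hp]
          have := abs_nonneg (q 0)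
          nlinarith
      · refine Or.inr (Or.inl ⟨h2, ?_⟩)
        rw [inv_eq_one_div, le_div_iff₀ hp]
        have := abs_nonneg (q 1)
        nlinarith
    have e1 : (4 : ℝ) * 2 ^ (k + 1) * (2 ^ k)⁻¹ = 8 := by field_simp; ring
    have e2 : (4 : ℝ) * (2 ^ k)⁻¹ * 2 ^ (k + 1) = 8 := by field_simp; ring
    calc volume (cross (k + 1)) ≤ _ := measure_mono hsub
      _ ≤ volume (cross k) + (volume (rect (2 ^ (k + 1)) (2 ^ k)⁻¹)
            + volume (rect (2 ^ k)⁻¹ (2 ^ (k + 1)))) :=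
          (measure_union_le _ _).trans (by gcongr; exact measure_union_le _ _)
      _ ≤ ENNReal.ofReal (16 * (k + 1)) + (ENNReal.ofReal 8 + ENNReal.ofReal 8) := by
          rw [vol_rect _ _ (by positivity), vol_rect _ _ (by positivity), e1, e2]
          gcongr
      _ = _ := by
          rw [← ENNReal.ofReal_add (by norm_num) (by norm_num),
            ← ENNReal.ofReal_add (by positivity) (by norm_num)]
          congr 1; push_cast; ring

lemma shape_hyp (M : E → E) (μ L : ℝ) (hμ : 0 ≤ μ) (hμL : μ * L ≤ 1)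
    (h0 : ∀ q, M q 0 = μ * q 0) (h1 : ∀ q, M q 1 = -μ * q 1) : Shape M L := by
  intro η hη
  obtain ⟨k, hk⟩ := growth (fun k => volume (cross k)) 16
    (Measure.measure_pos_of_mem_nhds _ (cross_mem_nhds 0)) vol_cross η hη
  refine ⟨cross k, cross (k + 1), isCompact_cross _, cross_mem_nhds _, isCompact_cross _, ?_, hk⟩
  rintro q ⟨hq1, hq2, hq3⟩ s hs
  have hsμ : |s * μ| ≤ 1 := by
    rw [abs_mul, abs_of_nonneg hμ]
    have := abs_nonneg s
    nlinarith
  have hsμ' := abs_le.1 hsμ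
  have e0 : (q + s • M q) 0 = (1 + s * μ) * q 0 := by
    simp only [PiLp.add_apply, PiLp.smul_apply, smul_eq_mul, h0]; ring
  have e1 : (q + s • M q) 1 = (1 - s * μ) * q 1 := by
    simp only [PiLp.add_apply, PiLp.smul_apply, smul_eq_mul, h1]; ring
  refine ⟨?_, ?_, ?_⟩
  · change |(q + s • M q) 0 * (q + s • M q) 1| ≤ 1
    rw [e0, e1]
    have : (1 + s * μ) * q 0 * ((1 - s * μ) * q 1) = (1 - (s * μ) ^ 2) * (q 0 * q 1) := by ring
    rw [this, abs_mul]
    refine mul_le_one₀ ?_ (abs_nonneg _) hq1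
    rw [abs_le]
    constructor <;> nlinarith
  · rw [e0, abs_mul, pow_succ, mul_comm (2 ^ k)]
    apply mul_le_mul _ hq2 (abs_nonneg _) (by norm_num)
    rw [abs_le]; constructor <;> linarith
  · rw [e1, abs_mul, pow_succ, mul_comm (2 ^ k)]
    apply mul_le_mul _ hq3 (abs_nonneg _) (by norm_num)
    rw [abs_le]; constructor <;> linarith

lemma shape_nil (M : E → E) (κ L : ℝ) (hL : 0 ≤ L)
    (h0 : ∀ q, M q 0 = κ * q 1) (h1 : ∀ q, M q 1 = 0) : Shape M L := by
  intro η hη
  set c : ℝ := L * |κ| + 1 with hc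
  have hc0 : 0 < c := by positivity
  obtain ⟨k, hk⟩ := growth (fun k => volume (rect (c * (k + 1)) 1)) (4 * c)
    (Measure.measure_pos_of_mem_nhds _ (rect_mem_nhds _ _ (by positivity) one_pos))
    (fun k => by
      rw [vol_rect _ _ (by positivity)]
      apply ENNReal.ofReal_le_ofReal; apply le_of_eq; ring) η hη
  refine ⟨_, _, isCompact_rect _ _, rect_mem_nhds _ _ (by positivity) one_pos,
    isCompact_rect _ _, ?_, hk⟩
  rintro q ⟨hq1, hq2⟩ s hs
  have e0 : (q + s • M q) 0 = q 0 + s * (κ * q 1) := by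
    simp only [PiLp.add_apply, PiLp.smul_apply, smul_eq_mul, h0]
  have e1 : (q + s • M q) 1 = q 1 := by
    simp only [PiLp.add_apply, PiLp.smul_apply, smul_eq_mul, h1]; ring
  refine ⟨?_, ?_⟩
  · rw [e0]
    refine (abs_add_le _ _).trans ?_
    have h2 : |s * (κ * q 1)| ≤ L * |κ| := by
      rw [abs_mul, abs_mul]
      apply mul_le_mul hs _ (by positivity) hL
      exact mul_le_of_le_one_right (abs_nonneg _) hq2
    push_cast
    nlinarith
  · rw [e1]; exact hq2

lemma shape_transfer (A M : E → E) (L : ℝ) (T : E ≃ₗ[ℝ] E) (hT : ∀ q, T (A q) = M (T q))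
    (hM : Shape M L) : Shape A L := by
  intro η hη
  obtain ⟨Q, Q', hQ, hQ0, hQ', hinv, hvol⟩ := hM η hη
  let T' := T.toContinuousLinearEquiv
  refine ⟨T ⁻¹' Q, T ⁻¹' Q', T'.toHomeomorph.isCompact_preimage.2 hQ, ?_,
    T'.toHomeomorph.isCompact_preimage.2 hQ', ?_, ?_⟩
  · apply T'.continuous.continuousAt.preimage_mem_nhds
    rw [map_zero]; exact hQ0
  · intro q hq s hs
    have := hinv (T q) hq s hs
    rw [mem_preimage, map_add, map_smul, hT]
    exact this
  · rw [Measure.addHaar_preimage_linearEquiv, Measure.addHaar_preimage_linearEquiv,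
      mul_left_comm]
    gcongr

noncomputable def mk2 (a b c d : ℝ) : E →ₗ[ℝ] E where
  toFun q := !₂[a * q 0 + b * q 1, c * q 0 + d * q 1]
  map_add' p q := by
    ext i; fin_cases i <;> simp <;> ring
  map_smul' r q := by
    ext i; fin_cases i <;> simp <;> ring

lemma mk2_0 (a b c d : ℝ) (q : E) : mk2 a b c d q 0 = a * q 0 + b * q 1 := rfl
lemma mk2_1 (a b c d : ℝ) (q : E) : mk2 a b c d q 1 = c * q 0 + d * q 1 := rfl

lemma mk2_inj (a b c d : ℝ) (h : a * d - b * c ≠ 0) : Function.Injective (mk2 a b c d) := by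
  rw [injective_iff_map_eq_zero]
  intro q hq
  have h0 : a * q 0 + b * q 1 = 0 := by rw [← mk2_0 a b c d q, hq]; rfl
  have h1 : c * q 0 + d * q 1 = 0 := by rw [← mk2_1 a b c d q, hq]; rfl
  have h2 : (a * d - b * c) * q 0 = 0 := by linear_combination d * h0 - b * h1
  have h3 : (a * d - b * c) * q 1 = 0 := by linear_combination a * h1 - c * h0
  ext i
  fin_cases i
  · exact (mul_eq_zero.1 h2).resolve_left h
  · exact (mul_eq_zero.1 h3).resolve_left h

lemma ext2 (p q : E) (h0 : p 0 = q 0) (h1 : p 1 = q 1) : p = q := by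
  ext i; fin_cases i
  · exact h0
  · exact h1

lemma shape_entries (A : E → E) (a b c L : ℝ) (hL : 0 < L)
    (h0 : ∀ q, A q 0 = a * q 0 + b * q 1) (h1 : ∀ q, A q 1 = c * q 0 - a * q 1)
    (hd0 : 0 ≤ a ^ 2 + b * c) (hd1 : a ^ 2 + b * c < (L ^ 2)⁻¹) : Shape A L := by
  set μ := Real.sqrt (a ^ 2 + b * c) with hμ
  have hμ0 : 0 ≤ μ := Real.sqrt_nonneg _
  have hμ2 : μ ^ 2 = a ^ 2 + b * c := Real.sq_sqrt hd0
  have hμL : μ * L ≤ 1 := by
    have h2 : (μ * L) ^ 2 ≤ 1 := by
      rw [mul_pow, hμ2]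
      have := (lt_div_iff₀ (by positivity : 0 < L ^ 2)).1 (by rwa [← one_div] at hd1)
      exact this.le
    nlinarith [mul_nonneg hμ0 hL.le]
  rcases hμ0.lt_or_eq with hpos | hzero
  · have hM := shape_hyp (mk2 μ 0 0 (-μ)) μ L hμ0 hμL (fun q => by rw [mk2_0]; ring)
      (fun q => by rw [mk2_1]; ring)
    by_cases ha : 0 ≤ a
    · have hdet : (a + μ) * (-a - μ) - b * c ≠ 0 := by
        have : (a + μ) * (-a - μ) - b * c = -2 * μ * (a + μ) := by linear_combination hμ2
        rw [this]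
        have : 0 < a + μ := by linarith
        have : 0 < μ * (a + μ) := by positivity
        nlinarith
      refine shape_transfer A _ L (LinearEquiv.ofInjectiveEndo _ (mk2_inj _ _ _ _ hdet)) ?_ hM
      intro q
      simp only [LinearEquiv.coe_ofInjectiveEndo]
      apply ext2
      · simp only [mk2_0, mk2_1, h0, h1]
        linear_combination (-q 0) * hμ2
      · simp only [mk2_0, mk2_1, h0, h1]
        linear_combination (-q 1) * hμ2
    · have hdet : c * b - (μ - a) * (a - μ) ≠ 0 := by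
        have : c * b - (μ - a) * (a - μ) = 2 * μ * (μ - a) := by linear_combination -hμ2
        rw [this]
        have : 0 < μ - a := by linarith
        positivity
      refine shape_transfer A _ L (LinearEquiv.ofInjectiveEndo _ (mk2_inj _ _ _ _ hdet)) ?_ hM
      intro q
      simp only [LinearEquiv.coe_ofInjectiveEndo]
      apply ext2
      · simp only [mk2_0, mk2_1, h0, h1]
        linear_combination (-q 1) * hμ2
      · simp only [mk2_0, mk2_1, h0, h1]
        linear_combination (-q 0) * hμ2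
  · have hz : a ^ 2 + b * c = 0 := by rw [← hμ2, ← hzero]; ring
    by_cases hb : b = 0
    · have ha : a = 0 := by
        rw [hb, zero_mul, add_zero] at hz
        exact pow_eq_zero_iff (two_ne_zero) |>.1 hz
      have hM := shape_nil (mk2 0 c 0 0) c L hL.le (fun q => by rw [mk2_0]; ring)
        (fun q => by rw [mk2_1]; ring)
      have hdet : (0 : ℝ) * 0 - 1 * 1 ≠ 0 := by norm_num
      refine shape_transfer A _ L (LinearEquiv.ofInjectiveEndo _ (mk2_inj _ _ _ _ hdet)) ?_ hM
      intro q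
      simp only [LinearEquiv.coe_ofInjectiveEndo]
      apply ext2
      · simp only [mk2_0, mk2_1, h0, h1, ha, hb]; ring
      · simp only [mk2_0, mk2_1, h0, h1, ha, hb]; ring
    · have hM := shape_nil (mk2 0 1 0 0) 1 L hL.le (fun q => by rw [mk2_0]; ring)
        (fun q => by rw [mk2_1]; ring)
      have hdet : (1 : ℝ) * b - 0 * a ≠ 0 := by simpa using hb
      refine shape_transfer A _ L (LinearEquiv.ofInjectiveEndo _ (mk2_inj _ _ _ _ hdet)) ?_ hM
      intro q
      simp only [LinearEquiv.coe_ofInjectiveEndo]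
      apply ext2
      · simp only [mk2_0, mk2_1, h0, h1]; ring
      · simp only [mk2_0, mk2_1, h0, h1]
        linear_combination (q 0) * hz

theorem shape_of_trace_det (A : E →L[ℝ] E) (L : ℝ) (hL : 0 < L)
    (htr : LinearMap.trace ℝ _ A.toLinearMap = 0)
    (hdet : -(L ^ 2)⁻¹ < LinearMap.det A.toLinearMap ∧ LinearMap.det A.toLinearMap ≤ 0) :
    Shape A L := by
  let b := (EuclideanSpace.basisFun (Fin 2) ℝ).toBasis
  rw [LinearMap.trace_eq_matrix_trace ℝ b, Matrix.trace_fin_two] at htr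
  rw [← LinearMap.det_toMatrix b, Matrix.det_fin_two] at hdet
  set N := LinearMap.toMatrix b b A.toLinearMap with hN
  have hA : ∀ q : E, ∀ i, A q i = N i 0 * q 0 + N i 1 * q 1 := by
    intro q i
    have h1 := LinearMap.toMatrix_mulVec_repr b b A.toLinearMap q
    have h2 := congrFun h1 i
    rw [← hN] at h2
    simp only [Matrix.mulVec, dotProduct, Fin.sum_univ_two, b, OrthonormalBasis.coe_toBasis_repr_apply,
      EuclideanSpace.basisFun_repr, ContinuousLinearMap.coe_coe] at h2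
    exact h2.symm
  have h11 : N 1 1 = - N 0 0 := by linarith
  apply shape_entries A (N 0 0) (N 0 1) (N 1 0) L hL (fun q => hA q 0)
    (fun q => by rw [hA, h11]; ring)
  · rw [h11] at hdet; nlinarith [hdet.2]
  · rw [h11] at hdet; nlinarith [hdet.1]

end Crest.Agent.R211A
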