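import Mathlib
import Crest.Agent.R211.RuledShape

set_option autoImplicit false
open MeasureTheory Set Metric Pointwise
open scoped ENNReal NNReal Topology

namespace Crest.Agent.R211A

def ruled (V : E → E) (L : ℝ) (S : Set E) : Set (ℝ × E) :=
  {z | ∃ p ∈ S, abs z.1 ≤ L ∧ z.2 = p + z.1 • V p}

lemma ruled_mono (V : E → E) (L : ℝ) {S T : Set E} (h : S ⊆ T) : ruled V L S ⊆ ruled V L T := by
  rintro z ⟨p, hp, hz⟩
  exact ⟨p, h hp, hz⟩

noncomputable def kappa (h : ℝ) (V : E → E) (L : ℝ) (S : Set E) : ℝ≥0∞ := nu h (ruled V L S)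

variable {h : ℝ} {V : E → E} {L : ℝ}

lemma kappa_mono {S T : Set E} (hST : S ⊆ T) : kappa h V L S ≤ kappa h V L T :=
  measure_mono (ruled_mono V L hST)

lemma kappa_union (S T : Set E) : kappa h V L (S ∪ T) ≤ kappa h V L S + kappa h V L T := by
  refine le_trans (measure_mono ?_) (measure_union_le (μ := nu h) _ _)
  rintro z ⟨p, hp | hp, hz⟩
  · exact Or.inl ⟨p, hp, hz⟩
  · exact Or.inr ⟨p, hp, hz⟩

lemma kappa_biUnion {ι : Type*} {u : Set ι} (hu : u.Countable) (B : ι → Set E) :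
    kappa h V L (⋃ a ∈ u, B a) ≤ ∑' a : u, kappa h V L (B a) := by
  refine le_trans (measure_mono ?_) (measure_biUnion_le (nu h) hu fun a => ruled V L (B a))
  rintro z ⟨p, hp, hz⟩
  obtain ⟨a, ha, hpa⟩ := mem_iUnion₂.1 hp
  exact mem_iUnion₂.2 ⟨a, ha, p, hpa, hz⟩

lemma kappa_empty : kappa h V L ∅ = 0 := by
  have : ruled V L ∅ = ∅ := by
    ext z; simp [ruled]
  rw [kappa, this, measure_empty]

lemma kappa_tube (S K : Set E) (hK : MeasurableSet K) (g : E)
    (htube : ∀ p ∈ S, ∀ s : ℝ, |s| ≤ L → p + s • (V p - g) ∈ K) :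
    kappa h V L S ≤ volume K * ENNReal.ofReal (J h g) := by
  refine le_trans (measure_mono ?_) (nu_cyl h K hK g)
  rintro z ⟨p, hp, hz1, hz2⟩
  have := htube p hp z.1 hz1
  change z.2 - z.1 • g ∈ K
  rw [hz2]
  convert this using 1
  rw [smul_sub]; abel

def tile (Q : Set E) (x : E) (r : ℝ) : Set E := x +ᵥ r • Q

lemma mem_tile {Q : Set E} {x : E} {r : ℝ} {p : E} :
    p ∈ tile Q x r ↔ ∃ q ∈ Q, p = x + r • q := by
  simp only [tile, mem_vadd_set, mem_smul_set, vadd_eq_add]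
  constructor
  · rintro ⟨y, ⟨q, hq, rfl⟩, rfl⟩
    exact ⟨q, hq, rfl⟩
  · rintro ⟨q, hq, rfl⟩
    exact ⟨_, ⟨q, hq, rfl⟩, rfl⟩

lemma vol_tile (Q : Set E) (x : E) (r : ℝ) :
    volume (tile Q x r) = ENNReal.ofReal (r ^ 2) * volume Q := by
  rw [tile, measure_vadd, Measure.addHaar_smul]
  simp

lemma isCompact_tile {Q : Set E} (hQ : IsCompact Q) (x : E) (r : ℝ) : IsCompact (tile Q x r) :=
  (hQ.smul r).vadd x

lemma tile_subset {Q : Set E} {R : ℝ} (hR : ∀ q ∈ Q, ‖q‖ ≤ R) (x : E) {r : ℝ} (hr : 0 ≤ r) :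
    tile Q x r ⊆ closedBall x (r * R) := by
  intro p hp
  obtain ⟨q, hq, rfl⟩ := mem_tile.1 hp
  rw [mem_closedBall, dist_eq_norm, add_sub_cancel_left, norm_smul, Real.norm_of_nonneg hr]
  exact mul_le_mul_of_nonneg_left (hR q hq) hr

lemma subset_tile {Q : Set E} {q0 : ℝ} (hq0 : closedBall (0 : E) q0 ⊆ Q) (x : E) {r : ℝ}
    (hr : 0 < r) : closedBall x (r * q0) ⊆ tile Q x r := by
  intro p hp
  refine mem_tile.2 ⟨r⁻¹ • (p - x), hq0 ?_, ?_⟩
  · rw [mem_closedBall, dist_eq_norm] at hp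
    rw [mem_closedBall, dist_zero_right, norm_smul, norm_inv, Real.norm_of_nonneg hr.le,
      inv_mul_le_iff₀ hr]
    exact hp
  · rw [smul_inv_smul₀ hr.ne']; abel

/-- local lemma -/
lemma local_tile (hL : 0 < L) (p₀ : E) (A : E →L[ℝ] E) (hA : HasStrictFDerivAt V A p₀)
    (hS : Shape A L) (η : ℝ) (hη : 0 < η) :
    ∃ Q : Set E, IsCompact Q ∧ Q ∈ 𝓝 (0 : E) ∧ ∃ ρ : ℝ, 0 < ρ ∧
      ∀ x ∈ ball p₀ ρ, ∀ r : ℝ, 0 < r → r ≤ ρ →
        kappa h V L (tile Q x r) ≤
          ENNReal.ofReal (1 + η) * volume (tile Q x r) * ENNReal.ofReal (J h (V x)) := by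
  obtain ⟨Q, Q', hQ, hQ0, hQ', hinv, hvol⟩ := hS (η / 2) (by linarith)
  have hQpos : 0 < volume Q := Measure.measure_pos_of_mem_nhds _ hQ0
  have hlt : volume Q' < ENNReal.ofReal (1 + η) * volume Q := by
    refine hvol.trans_lt ?_
    apply ENNReal.mul_lt_mul_left hQpos.ne' hQ.measure_lt_top.ne
    exact (ENNReal.ofReal_lt_ofReal_iff (by linarith)).2 (by linarith)
  have hev := (tendsto_measure_cthickening_of_isCompact (μ := volume) hQ').eventually
    (gt_mem_nhds hlt)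
  obtain ⟨δ, hδ, hδ0⟩ :=
    ((hev.filter_mono nhdsWithin_le_nhds).and (self_mem_nhdsWithin (a := (0 : ℝ)) (s := Ioi 0))).exists
  have hδ0' : 0 < δ := hδ0
  obtain ⟨R, hR0, hR⟩ := hQ.isBounded.exists_pos_norm_le
  have hd : 0 < δ / (L * R) := by positivity
  have hA' := hA.isLittleO.bound hd
  rw [nhds_prod_eq] at hA'
  obtain ⟨W, hW, hW'⟩ := Filter.eventually_prod_self_iff'.1 hA'
  obtain ⟨ρ₁, hρ₁, hball⟩ := Metric.mem_nhds_iff.1 hW
  refine ⟨Q, hQ, hQ0, ρ₁ / (1 + R), by positivity, fun x hx r hr hrρ => ?_⟩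
  have hρle : ρ₁ / (1 + R) ≤ ρ₁ := div_le_self hρ₁.le (by linarith)
  have hxW : x ∈ W := hball (ball_subset_ball hρle hx)
  have hK : IsCompact (tile (cthickening δ Q') x r) := isCompact_tile hQ'.cthickening x r
  refine (kappa_tube (tile Q x r) _ hK.measurableSet (V x) ?_).trans ?_
  · intro p hp s hs
    obtain ⟨q, hq, rfl⟩ := mem_tile.1 hp
    have hpW : x + r • q ∈ W := by
      apply hball
      rw [mem_ball] at hx ⊢
      have h1 : dist (x + r • q) x ≤ r * R := tile_subset hR x hr.le hp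
      have h2 := dist_triangle (x + r • q) x p₀
      have h3 : r * R ≤ ρ₁ / (1 + R) * R := by gcongr
      have h4 : ρ₁ / (1 + R) * R + ρ₁ / (1 + R) = ρ₁ := by field_simp; ring
      linarith
    have herr := hW' (x + r • q) hpW x hxW
    simp only [add_sub_cancel_left] at herr
    set err := V (x + r • q) - V x - A (r • q) with herrdef
    refine mem_tile.2 ⟨q + s • A q + (s / r) • err, ?_, ?_⟩
    · refine mem_cthickening_of_dist_le _ (q + s • A q) δ Q' (hinv q hq s hs) ?_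
      rw [dist_eq_norm, add_sub_cancel_left, norm_smul, norm_div, Real.norm_of_nonneg hr.le,
        Real.norm_eq_abs]
      rw [norm_smul, Real.norm_of_nonneg hr.le] at herr
      have h5 : ‖err‖ ≤ δ / (L * R) * (r * R) := herr.trans (by gcongr; exact hR q hq)
      calc |s| / r * ‖err‖ ≤ L / r * (δ / (L * R) * (r * R)) := by gcongr
        _ = δ := by field_simp
    · have h6 : V (x + r • q) - V x = r • A q + err := by
        rw [herrdef, map_smul]; abel
      rw [h6]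
      simp only [smul_add, smul_smul]
      rw [mul_div_cancel₀ _ hr.ne', mul_comm r s]
      abel
  · rw [vol_tile, vol_tile, mul_left_comm]
    gcongr

/-- null sets cost nothing -/
lemma kappa_null (Q : Set E) (hQ : IsCompact Q) (hQ0 : Q ∈ 𝓝 (0 : E)) (ρ : ℝ) (hρ : 0 < ρ)
    (c : ℝ≥0∞) (hc : c ≠ ∞) (N : Set E) (hN : volume N = 0)
    (H : ∀ x ∈ N, ∀ r : ℝ, 0 < r → r ≤ ρ → kappa h V L (tile Q x r) ≤ c * volume (tile Q x r)) :
    kappa h V L N = 0 := by
  obtain ⟨q0, hq0, hq⟩ := Metric.nhds_basis_closedBall.mem_iff.1 hQ0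
  set b := volume (closedBall (0 : E) q0) with hb
  have hb0 : b ≠ 0 := (measure_closedBall_pos _ _ hq0).ne'
  have hbt : b ≠ ∞ := measure_closedBall_lt_top.ne
  set C := c * (volume Q / b) with hC
  have hCt : C ≠ ∞ := ENNReal.mul_ne_top hc (ENNReal.div_ne_top hQ.measure_lt_top.ne hb0)
  have hball : ∀ x ∈ N, ∀ r' : ℝ, 0 < r' → r' ≤ ρ * q0 →
      kappa h V L (closedBall x r') ≤ C * volume (closedBall x r') := by
    intro x hx r' hr' hr'ρ
    have hr : 0 < r' / q0 := by positivity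
    have e : r' = r' / q0 * q0 := by field_simp
    have h1 : closedBall x r' ⊆ tile Q x (r' / q0) := by
      conv_lhs => rw [e]
      exact subset_tile hq x hr
    refine (kappa_mono h1).trans ((H x hx _ hr (by rw [div_le_iff₀ hq0]; exact hr'ρ)).trans
      (le_of_eq ?_))
    conv_rhs => rw [e]
    rw [vol_tile, Measure.addHaar_closedBall_mul_of_pos _ _ hr, ← hb, hC]
    simp only [finrank_euclideanSpace, Fintype.card_fin]
    rw [mul_assoc, mul_left_comm (volume Q / b), ENNReal.div_mul_cancel hb0 hbt]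
  apply le_antisymm _ zero_le
  have key : ∀ ε : ℝ≥0∞, ε ≠ 0 → kappa h V L N ≤ C * ε := by
    intro ε hε
    obtain ⟨t, r, htc, htN, hr, hcov, hsum⟩ :=
      Besicovitch.exists_closedBall_covering_tsum_measure_le (volume : Measure E)
        hε (fun _ => Ioc 0 (ρ * q0)) N
        (fun x _ δ hδ => ⟨min (ρ * q0) (δ / 2), ⟨by positivity, min_le_left _ _⟩,
          by positivity, (min_le_right _ _).trans_lt (by linarith)⟩)
    rw [hN, zero_add] at hsum
    calc kappa h V L N ≤ _ := kappa_mono hcov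
      _ ≤ ∑' x : t, kappa h V L (closedBall (x : E) (r x)) := kappa_biUnion htc _
      _ ≤ ∑' x : t, C * volume (closedBall (x : E) (r x)) :=
          ENNReal.tsum_le_tsum fun x => hball x (htN x.2) _ (hr x x.2).1 (hr x x.2).2
      _ = C * ∑' x : t, volume (closedBall (x : E) (r x)) := ENNReal.tsum_mul_left
      _ ≤ C * ε := by gcongr
  have ht : Filter.Tendsto (fun ε : ℝ≥0∞ => C * ε) (𝓝[>] 0) (𝓝 (C * 0)) :=
    (ENNReal.Tendsto.const_mul Filter.tendsto_id (Or.inr hCt)).mono_left nhdsWithin_le_nhds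
  rw [mul_zero] at ht
  refine ge_of_tendsto ht ?_
  filter_upwards [self_mem_nhdsWithin] with ε hε
  exact key ε (ne_of_gt hε)

/-- single-shape Vitali estimate -/
lemma kappa_vitali (Q : Set E) (hQ : IsCompact Q) (hQ0 : Q ∈ 𝓝 (0 : E)) (ρ : ℝ) (hρ : 0 < ρ)
    (η : ℝ) (hη : 0 < η) (T : Set E) (hT : MeasurableSet T) (hTf : volume T ≠ ∞)
    (hcont : ∀ x ∈ T, ContinuousAt V x)
    (H : ∀ x ∈ T, ∀ r : ℝ, 0 < r → r ≤ ρ → kappa h V L (tile Q x r) ≤
      ENNReal.ofReal (1 + η) * volume (tile Q x r) * ENNReal.ofReal (J h (V x))) :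
    kappa h V L T ≤ ENNReal.ofReal (1 + η) ^ 2 * ∫⁻ p in T, ENNReal.ofReal (J h (V p)) := by
  set c := ENNReal.ofReal (1 + η) with hc
  have hct : c ≠ ∞ := ENNReal.ofReal_ne_top
  set f : E → ℝ≥0∞ := fun p => ENNReal.ofReal (J h (V p)) with hf
  have hf1 : ∀ p, f p ≤ 1 := fun p => ENNReal.ofReal_le_one.2 (J_le_one h _)
  obtain ⟨R, hR0, hR⟩ := hQ.isBounded.exists_pos_norm_le
  have hQpos : volume Q ≠ 0 := (Measure.measure_pos_of_mem_nhds _ hQ0).ne'
  have hQt : volume Q ≠ ∞ := hQ.measure_lt_top.ne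
  obtain ⟨q0, hq0, hq⟩ := Metric.nhds_basis_closedBall.mem_iff.1 hQ0
  have key : ∀ ε : ℝ≥0∞, ε ≠ 0 → kappa h V L T ≤ c ^ 2 * ((∫⁻ p in T, f p) + ε) := by
    intro ε hε
    obtain ⟨O, hTO, hO, -, hOT⟩ := hT.exists_isOpen_sdiff_lt hTf hε
    let t : Set (E × ℝ) := {a | a.1 ∈ T ∧ 0 < a.2 ∧ a.2 ≤ ρ ∧
      ∀ p ∈ tile Q a.1 a.2, p ∈ O ∧ J h (V a.1) ≤ (1 + η) * J h (V p)}
    let Cv : ℝ≥0∞ := volume (closedBall (0 : E) (3 * R)) / volume Q
    have hCv : Cv ≠ ∞ := ENNReal.div_ne_top measure_closedBall_lt_top.ne hQpos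
    obtain ⟨u, hut, huc, hdisj, hnull⟩ := Vitali.exists_disjoint_covering_ae (volume : Measure E)
      T t Cv.toNNReal (fun a => a.2 * R) (fun a => a.1) (fun a => tile Q a.1 a.2)
      (fun a ha => tile_subset hR _ ha.2.1.le)
      (fun a ha => by
        rw [ENNReal.coe_toNNReal hCv, vol_tile, show 3 * (a.2 * R) = a.2 * (3 * R) by ring,
          Measure.addHaar_closedBall_mul_of_pos _ _ ha.2.1]
        simp only [finrank_euclideanSpace, Fintype.card_fin]
        rw [mul_left_comm, ENNReal.div_mul_cancel hQpos hQt])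
      (fun a ha => ⟨a.1, mem_interior_iff_mem_nhds.2 (Filter.mem_of_superset
        (closedBall_mem_nhds a.1 (mul_pos ha.2.1 hq0)) (subset_tile hq _ ha.2.1))⟩)
      (fun a _ => (isCompact_tile hQ _ _).isClosed)
      (fun x hx ε' hε' => by
        have h1 : ContinuousAt (fun p => (1 + η) * J h (V p)) x :=
          continuousAt_const.mul ((continuous_J h).continuousAt.comp (hcont x hx))
        have h2 : J h (V x) < (1 + η) * J h (V x) := by
          have := J_pos h (V x)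
          nlinarith
        have h3 : ∀ᶠ p in 𝓝 x, p ∈ O ∧ J h (V x) ≤ (1 + η) * J h (V p) :=
          (hO.eventually_mem (hTO hx)).and
            ((h1.eventually (lt_mem_nhds h2)).mono fun p hp => hp.le)
        obtain ⟨e, he, h4⟩ := Metric.nhds_basis_closedBall.eventually_iff.1 h3
        have h5 : 0 < min ρ (min ε' e / R) := by positivity
        have h6 : min ρ (min ε' e / R) * R ≤ min ε' e := by
          rw [← le_div_iff₀ hR0]; exact min_le_right _ _
        refine ⟨(x, min ρ (min ε' e / R)), ⟨hx, h5, min_le_left _ _, fun p hp => h4 ?_⟩,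
          h6.trans (min_le_left _ _), rfl⟩
        exact closedBall_subset_closedBall (h6.trans (min_le_right _ _))
          (tile_subset hR x h5.le hp))
    have hN : kappa h V L (T \ ⋃ a ∈ u, tile Q a.1 a.2) = 0 := by
      refine kappa_null Q hQ hQ0 ρ hρ c hct _ hnull fun x hx r hr hrρ => ?_
      refine (H x hx.1 r hr hrρ).trans ?_
      calc c * volume (tile Q x r) * f x ≤ c * volume (tile Q x r) * 1 := by gcongr; exact hf1 x
        _ = _ := mul_one _
    have hmeas : ∀ a : E × ℝ, MeasurableSet (tile Q a.1 a.2) := fun a =>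
      (isCompact_tile hQ _ _).measurableSet
    have htile : ∀ a ∈ u, kappa h V L (tile Q a.1 a.2) ≤ c ^ 2 * ∫⁻ p in tile Q a.1 a.2, f p := by
      intro a ha
      obtain ⟨h1, h2, h3, h4⟩ := hut ha
      refine (H _ h1 _ h2 h3).trans ?_
      rw [mul_assoc, pow_two, mul_assoc]
      refine mul_le_mul_right ?_ _
      rw [← lintegral_const_mul' _ _ hct, mul_comm, ← setLIntegral_const]
      refine setLIntegral_mono' (hmeas a) fun p hp => ?_
      rw [hc, hf, ← ENNReal.ofReal_mul (by linarith)]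
      exact ENNReal.ofReal_le_ofReal (h4 p hp).2
    have hsubO : (⋃ a ∈ u, tile Q a.1 a.2) ⊆ T ∪ (O \ T) := by
      intro p hp
      obtain ⟨a, ha, hpa⟩ := mem_iUnion₂.1 hp
      have := ((hut ha).2.2.2 p hpa).1
      by_cases hpT : p ∈ T
      · exact Or.inl hpT
      · exact Or.inr ⟨this, hpT⟩
    calc kappa h V L T
        ≤ kappa h V L ((⋃ a ∈ u, tile Q a.1 a.2) ∪ (T \ ⋃ a ∈ u, tile Q a.1 a.2)) :=
          kappa_mono (by rw [union_sdiff_self]; exact subset_union_right)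
      _ ≤ kappa h V L (⋃ a ∈ u, tile Q a.1 a.2) + 0 := by rw [← hN]; exact kappa_union _ _
      _ ≤ ∑' a : u, kappa h V L (tile Q a.1.1 a.1.2) := by
          rw [add_zero]; exact kappa_biUnion huc (fun a : E × ℝ => tile Q a.1 a.2)
      _ ≤ ∑' a : u, c ^ 2 * ∫⁻ p in tile Q a.1.1 a.1.2, f p :=
          ENNReal.tsum_le_tsum fun a => htile a a.2
      _ = c ^ 2 * ∫⁻ p in ⋃ a ∈ u, tile Q a.1 a.2, f p := by
          rw [ENNReal.tsum_mul_left, lintegral_biUnion huc (fun a _ => hmeas a) hdisj]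
      _ ≤ c ^ 2 * ((∫⁻ p in T, f p) + ε) := by
          refine mul_le_mul_right ?_ _
          calc ∫⁻ p in ⋃ a ∈ u, tile Q a.1 a.2, f p ≤ ∫⁻ p in T ∪ (O \ T), f p :=
                lintegral_mono_set hsubO
            _ ≤ (∫⁻ p in T, f p) + ∫⁻ p in O \ T, f p := lintegral_union_le _ _ _
            _ ≤ (∫⁻ p in T, f p) + ε := by
                gcongr
                calc ∫⁻ p in O \ T, f p ≤ ∫⁻ _p in O \ T, 1 := lintegral_mono hf1
                  _ = volume (O \ T) := by simp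
                  _ ≤ ε := hOT.le
  have ht : Filter.Tendsto (fun ε : ℝ≥0∞ => c ^ 2 * ((∫⁻ p in T, f p) + ε)) (𝓝[>] 0)
      (𝓝 (c ^ 2 * ((∫⁻ p in T, f p) + 0))) :=
    (ENNReal.Tendsto.const_mul (tendsto_const_nhds.add Filter.tendsto_id)
      (Or.inr (ENNReal.pow_ne_top hct))).mono_left nhdsWithin_le_nhds
  rw [add_zero] at ht
  refine ge_of_tendsto ht ?_
  filter_upwards [self_mem_nhdsWithin] with ε hε
  exact key ε (ne_of_gt hε)

theorem kappa_le_eta (D : Set E) (hD : IsCompact D) (hL : 0 < L)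
    (hloc : ∀ p ∈ D, ∃ A : E →L[ℝ] E, HasStrictFDerivAt V A p ∧ Shape A L)
    (η : ℝ) (hη : 0 < η) :
    kappa h V L D ≤ ENNReal.ofReal (1 + η) ^ 2 * ∫⁻ p in D, ENNReal.ofReal (J h (V p)) := by
  have hcont : ∀ x ∈ D, ContinuousAt V x := fun x hx => by
    obtain ⟨A, hA, -⟩ := hloc x hx
    exact hA.hasFDerivAt.continuousAt
  let P : Set E → Prop := fun S => ∃ S', S ⊆ S' ∧ MeasurableSet S' ∧
    ∀ T, MeasurableSet T → T ⊆ S' ∩ D →
      kappa h V L T ≤ ENNReal.ofReal (1 + η) ^ 2 * ∫⁻ p in T, ENNReal.ofReal (J h (V p))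
  have hP : P D := by
    refine hD.induction_on (p := P) ?_ ?_ ?_ ?_
    · refine ⟨∅, subset_rfl, MeasurableSet.empty, fun T _ hT => ?_⟩
      rw [empty_inter, subset_empty_iff] at hT
      rw [hT, kappa_empty]; exact zero_le
    · rintro S S₂ hS ⟨S', h1, h2, h3⟩
      exact ⟨S', hS.trans h1, h2, h3⟩
    · rintro S₁ S₂ ⟨S₁', h1, h2, h3⟩ ⟨S₂', h4, h5, h6⟩
      refine ⟨S₁' ∪ S₂', union_subset_union h1 h4, h2.union h5, fun T hT hTs => ?_⟩
      have e : T = (T ∩ S₁') ∪ (T \ S₁') := (inter_union_sdiff T S₁').symm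
      calc kappa h V L T ≤ kappa h V L (T ∩ S₁') + kappa h V L (T \ S₁') := by
            conv_lhs => rw [e]
            exact kappa_union _ _
        _ ≤ _ := add_le_add (h3 _ (hT.inter h2) fun p hp => ⟨hp.2, (hTs hp.1).2⟩)
            (h6 _ (hT.diff h2) fun p hp => ⟨(hTs hp.1).1.resolve_left hp.2, (hTs hp.1).2⟩)
        _ = _ := by
            rw [← mul_add, lintegral_inter_add_sdiff _ _ h2]
    · intro p hp
      obtain ⟨A, hA, hS⟩ := hloc p hp
      obtain ⟨Q, hQ, hQ0, ρ, hρ, H⟩ := local_tile (h := h) hL p A hA hS η hη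
      refine ⟨ball p ρ, mem_nhdsWithin_of_mem_nhds (ball_mem_nhds p hρ), ball p ρ, subset_rfl,
        measurableSet_ball, fun T hT hTs => ?_⟩
      exact kappa_vitali Q hQ hQ0 ρ hρ η hη T hT
        (ne_top_of_le_ne_top hD.measure_lt_top.ne (measure_mono fun x hx => (hTs hx).2))
        (fun x hx => hcont x (hTs hx).2) (fun x hx => H x (hTs hx).1)
  obtain ⟨S', h1, -, h3⟩ := hP
  exact h3 D hD.measurableSet fun x hx => ⟨h1 hx, hx⟩

theorem kappa_le (D : Set E) (hD : IsCompact D) (hL : 0 < L)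
    (hloc : ∀ p ∈ D, ∃ A : E →L[ℝ] E, HasStrictFDerivAt V A p ∧ Shape A L) :
    kappa h V L D ≤ ENNReal.ofReal (∫ p in D, J h (V p)) := by
  have hcont : ContinuousOn (fun p => J h (V p)) D := fun x hx => by
    obtain ⟨A, hA, -⟩ := hloc x hx
    exact ((continuous_J h).continuousAt.comp hA.hasFDerivAt.continuousAt).continuousWithinAt
  have hI : ∫⁻ p in D, ENNReal.ofReal (J h (V p)) = ENNReal.ofReal (∫ p in D, J h (V p)) :=
    (ofReal_integral_eq_lintegral_ofReal (hcont.integrableOn_compact hD)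
      (Filter.Eventually.of_forall fun p => (J_pos h _).le)).symm
  set I := ∫ p in D, J h (V p)
  have ht : Filter.Tendsto (fun η : ℝ => ENNReal.ofReal ((1 + η) ^ 2 * I)) (𝓝[>] 0)
      (𝓝 (ENNReal.ofReal ((1 + 0) ^ 2 * I))) := by
    apply ENNReal.tendsto_ofReal
    apply Filter.Tendsto.mono_left _ nhdsWithin_le_nhds
    exact (by fun_prop : Continuous fun η : ℝ => (1 + η) ^ 2 * I).tendsto 0
  rw [add_zero, one_pow, one_mul] at ht
  refine ge_of_tendsto ht ?_
  filter_upwards [self_mem_nhdsWithin] with η hη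
  have hη' : 0 < η := hη
  rw [ENNReal.ofReal_mul (sq_nonneg _), ENNReal.ofReal_pow (by linarith), ← hI]
  exact kappa_le_eta D hD hL hloc η hη'

lemma isCompact_ruled (D : Set E) (hD : IsCompact D) (hV : ContinuousOn V D) :
    IsCompact (ruled V L D) := by
  have : ruled V L D = (fun w : ℝ × E => (w.1, w.2 + w.1 • V w.2)) '' (Icc (-L) L ×ˢ D) := by
    ext z
    constructor
    · rintro ⟨p, hp, h1, h2⟩
      exact ⟨(z.1, p), ⟨abs_le.1 h1, hp⟩, Prod.ext rfl h2.symm⟩
    · rintro ⟨w, ⟨h1, h2⟩, rfl⟩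
      exact ⟨w.2, h2, abs_le.2 h1, rfl⟩
  rw [this]
  refine (isCompact_Icc.prod hD).image_of_continuousOn ?_
  refine continuousOn_fst.prodMk (continuousOn_snd.add (continuousOn_fst.smul ?_))
  exact hV.comp continuousOn_snd fun w hw => hw.2

end Crest.Agent.R211A
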