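import Crest.Agent.R211.Proj

/-!
Transfer to an arbitrary regular tetrahedron; parallelogram and open bases (row 211).
-/

set_option autoImplicit false
open MeasureTheory Set
open scoped ENNReal Pointwise

noncomputable section

namespace Crest.Agent.R211

/-- a similarity of three-space -/
def sim (o : E3) (l : ℝ) (U : E3 ≃ₗᵢ[ℝ] E3) (x : E3) : E3 := o + l • U x

lemma gram_map (U : E3 ≃ₗᵢ[ℝ] E3) (a b : E3) : gram (U a) (U b) = gram a b := by
  simp [gram]

lemma projN_of_perp {n a : E3} (h : inner ℝ a n = 0) : projN n a = a := by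
  simp [projN, h]

lemma projN_map (U : E3 ≃ₗᵢ[ℝ] E3) (n y : E3) : projN (U n) (U y) = U (projN n y) := by
  simp [projN]

lemma TriCover.sim {K : Set E3} {ι : Type} [Fintype ι] {A : ℝ} (h : TriCover K ι A) (o : E3)
    (l : ℝ) (U : E3 ≃ₗᵢ[ℝ] E3) : TriCover (sim o l U '' K) ι (l ^ 2 * A) := by
  obtain ⟨u, p, q, r, h1, h2, h3, h4⟩ := h
  have hn : ∀ i, U (u i) ≠ 0 := by
    intro i h
    have := h1 i
    rw [← U.norm_map, h] at this
    simp at this
  have := triCover_of_raw (K := R211.sim o l U '' K) (fun i => U (u i))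
    (fun i => R211.sim o l U (p i)) (fun i => l • U (q i - p i)) (fun i => l • U (r i - p i)) hn (by
      rintro _ ⟨x, hx, rfl⟩
      obtain ⟨i, b, hb, t, rfl⟩ := mem_iUnion.1 (h3 hx)
      rw [convexHull_three] at hb
      obtain ⟨s, s', hs, rfl⟩ := mem_par.1 hb
      refine ⟨i, _, mem_par.2 ⟨s, s', hs, rfl⟩, l * t, ?_⟩
      simp only [R211.sim, map_add, map_smul]
      module)
  convert this using 1
  rw [← h4, Finset.mul_sum]
  apply Finset.sum_congr rfl
  intro i _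
  rw [projN_smul, projN_smul, projN_map, projN_map, projN_of_perp, projN_of_perp, gram_smul,
    gram_map, abs_mul_self]
  · ring
  · rw [inner_sub_left, (h2 i).2.2, (h2 i).1, sub_self]
  · rw [inner_sub_left, (h2 i).2.1, (h2 i).1, sub_self]

lemma area_sim (o : E3) {l : ℝ} (hl : 0 < l) (U : E3 ≃ₗᵢ[ℝ] E3) (S : Set E3) :
    μHE[2] (sim o l U '' S) = ENNReal.ofReal (l ^ 2) * μHE[2] S := by
  have h1 : sim o l U '' S = (fun x => o + x) '' (l • (U '' S)) := by
    rw [← image_smul, image_image, image_image]; rfl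
  rw [h1, (isometry_add_left o).euclideanHausdorffMeasure_image,
    Measure.euclideanHausdorffMeasure_smul₀ _ hl.ne', U.isometry.euclideanHausdorffMeasure_image,
    ENNReal.smul_def, smul_eq_mul]
  congr 1
  rw [ENNReal.ofReal_pow hl.le, ENNReal.coe_pow, ← Real.enorm_eq_ofReal hl.le]
  rfl

lemma continuous_sim (o : E3) (l : ℝ) (U : E3 ≃ₗᵢ[ℝ] E3) : Continuous (sim o l U) := by
  unfold sim; fun_prop

lemma area_proj_sim (o : E3) {l : ℝ} (hl : 0 < l) (U : E3 ≃ₗᵢ[ℝ] E3) {v : E3} (hv : ‖v‖ = 1) :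
    l ^ 2 * Real.sqrt 2 ≤ (μHE[2] (projN v '' (sim o l U '' K0))).toReal := by
  have hv0 : v ≠ 0 := by intro h; rw [h] at hv; simp at hv
  have hfin := area_projN_lt_top (isCompact_K0.image (continuous_sim o l U)) hv0
  rw [← ENNReal.ofReal_le_iff_le_toReal hfin.ne]
  have h1 : projN v '' (sim o l U '' K0) = sim (projN v o) l U '' (projN (U.symm v) '' K0) := by
    rw [image_image, image_image]
    apply image_congr
    intro x _
    simp only [sim, projN_add, projN_smul]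
    rw [← projN_map, U.apply_symm_apply]
  rw [h1, area_sim _ hl, ENNReal.ofReal_mul (by positivity)]
  gcongr
  exact sqrt2_le_area_proj (by rw [U.symm.norm_map, hv])

/-- the linear map with prescribed values on the standard basis -/
def lin3 (e₁ e₂ e₃ : E3) : E3 →ₗ[ℝ] E3 where
  toFun x := x 0 • e₁ + x 1 • e₂ + x 2 • e₃
  map_add' x y := by simp only [PiLp.add_apply]; module
  map_smul' c x := by simp only [PiLp.smul_apply, smul_eq_mul, RingHom.id_apply]; module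

lemma lin3_apply (e₁ e₂ e₃ x : E3) : lin3 e₁ e₂ e₃ x = x 0 • e₁ + x 1 • e₂ + x 2 • e₃ := rfl

/-- `sim` as an affine map -/
def simA (o : E3) (l : ℝ) (U : E3 ≃ₗᵢ[ℝ] E3) : E3 →ᵃ[ℝ] E3 where
  toFun := sim o l U
  linear := l • U.toLinearEquiv.toLinearMap
  map_vadd' p v := by
    simp only [sim, vadd_eq_add, map_add, LinearMap.smul_apply, smul_add]
    change _ = l • U v + _
    abel

theorem exists_sim (w : Fin 4 → E3) (ℓ : ℝ) (hℓ : 0 < ℓ)
    (hw : ∀ i j, i ≠ j → dist (w i) (w j) = ℓ) :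
    ∃ (o : E3) (U : E3 ≃ₗᵢ[ℝ] E3), convexHull ℝ (range w) = sim o (ℓ / 2) U '' K0 := by
  have hs := sqrt2_pos
  have hq := sqrt2_sq
  have d : ∀ i j, i ≠ j → (w i 0 - w j 0) ^ 2 + (w i 1 - w j 1) ^ 2 + (w i 2 - w j 2) ^ 2 = ℓ ^ 2 := by
    intro i j hij
    rw [← hw i j hij, dist_eq_norm, normsq3]; simp
  have d01 := d 0 1 (by decide)
  have d02 := d 0 2 (by decide)
  have d03 := d 0 3 (by decide)
  have d12 := d 1 2 (by decide)
  have d13 := d 1 3 (by decide)
  have d23 := d 2 3 (by decide)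
  set f₁ : E3 := w 0 - w 1 with hf₁
  set f₂ : E3 := w 2 - w 3 with hf₂
  set f₃ : E3 := w 2 + w 3 - w 0 - w 1 with hf₃
  have i11 : inner ℝ f₁ f₁ = ℓ ^ 2 := by
    simp only [inner3, hf₁, PiLp.sub_apply]; linear_combination d01
  have i22 : inner ℝ f₂ f₂ = ℓ ^ 2 := by
    simp only [inner3, hf₂, PiLp.sub_apply]; linear_combination d23
  have i33 : inner ℝ f₃ f₃ = 2 * ℓ ^ 2 := by
    simp only [inner3, hf₃, PiLp.sub_apply, PiLp.add_apply]
    linear_combination d02 + d03 + d12 + d13 - d01 - d23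
  have i12 : inner ℝ f₁ f₂ = 0 := by
    simp only [inner3, hf₁, hf₂, PiLp.sub_apply]
    linear_combination (1 / 2) * (d03 + d12 - d02 - d13)
  have i13 : inner ℝ f₁ f₃ = 0 := by
    simp only [inner3, hf₁, hf₃, PiLp.sub_apply, PiLp.add_apply]
    linear_combination (1 / 2) * (d12 + d13 - d02 - d03)
  have i23 : inner ℝ f₂ f₃ = 0 := by
    simp only [inner3, hf₂, hf₃, PiLp.sub_apply, PiLp.add_apply]
    linear_combination (1 / 2) * (d02 + d12 - d03 - d13)
  have i21 : inner ℝ f₂ f₁ = 0 := by rw [real_inner_comm, i12]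
  have i31 : inner ℝ f₃ f₁ = 0 := by rw [real_inner_comm, i13]
  have i32 : inner ℝ f₃ f₂ = 0 := by rw [real_inner_comm, i23]
  let L := lin3 (ℓ⁻¹ • f₁) (ℓ⁻¹ • f₂) ((Real.sqrt 2 * ℓ)⁻¹ • f₃)
  have hL : ∀ x, ‖L x‖ = ‖x‖ := by
    intro x
    rw [← sq_eq_sq₀ (norm_nonneg _) (norm_nonneg _), normsq3 x, ← real_inner_self_eq_norm_sq]
    simp only [L, lin3_apply, inner_add_left, inner_add_right, real_inner_smul_left,
      real_inner_smul_right, i11, i22, i33, i12, i13, i23, i21, i31, i32]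
    have hq' : (Real.sqrt 2 * ℓ)⁻¹ * (Real.sqrt 2 * ℓ)⁻¹ * (2 * ℓ ^ 2) = 1 := by
      rw [← mul_inv, inv_mul_eq_one₀ (by positivity)]
      linear_combination ℓ ^ 2 * hq
    have hq'' : ℓ⁻¹ * ℓ⁻¹ * ℓ ^ 2 = 1 := by field_simp
    linear_combination (x 0 ^ 2 + x 1 ^ 2) * hq'' + x 2 ^ 2 * hq'
  let U : E3 ≃ₗᵢ[ℝ] E3 := LinearIsometry.toLinearIsometryEquiv ⟨L, hL⟩ rfl
  have hU : ∀ x, U x = L x := fun x => rfl
  refine ⟨(1 / 2 : ℝ) • (w 0 + w 1), U, ?_⟩
  have := (simA ((1 / 2 : ℝ) • (w 0 + w 1)) (ℓ / 2) U).image_convexHull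
    {!₂[1, 0, 0], !₂[-1, 0, 0], !₂[0, 1, Real.sqrt 2], !₂[0, -1, Real.sqrt 2]}
  refine Eq.trans ?_ this.symm
  congr 1
  have e0 : simA ((1 / 2 : ℝ) • (w 0 + w 1)) (ℓ / 2) U !₂[1, 0, 0] = w 0 := by
    change sim _ _ _ _ = _
    rw [sim, hU]; ext k
    simp [L, lin3_apply, hf₁]
    field_simp; ring
  have e1 : simA ((1 / 2 : ℝ) • (w 0 + w 1)) (ℓ / 2) U !₂[-1, 0, 0] = w 1 := by
    change sim _ _ _ _ = _
    rw [sim, hU]; ext k
    simp [L, lin3_apply, hf₁]
    field_simp; ring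
  have e2 : simA ((1 / 2 : ℝ) • (w 0 + w 1)) (ℓ / 2) U !₂[0, 1, Real.sqrt 2] = w 2 := by
    change sim _ _ _ _ = _
    rw [sim, hU]; ext k
    simp [L, lin3_apply, hf₂, hf₃]
    field_simp; ring
  have e3 : simA ((1 / 2 : ℝ) • (w 0 + w 1)) (ℓ / 2) U !₂[0, -1, Real.sqrt 2] = w 3 := by
    change sim _ _ _ _ = _
    rw [sim, hU]; ext k
    simp [L, lin3_apply, hf₂, hf₃]
    field_simp; ring
  simp only [image_insert_eq, image_singleton, e0, e1, e2, e3]
  ext x
  simp only [mem_range, mem_insert_iff, mem_singleton_iff]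
  constructor
  · rintro ⟨i, rfl⟩
    fin_cases i <;> simp
  · rintro (rfl | rfl | rfl | rfl)
    exacts [⟨0, rfl⟩, ⟨1, rfl⟩, ⟨2, rfl⟩, ⟨3, rfl⟩]

lemma sum_strips (n : ℕ) (hn : 0 < n) :
    ∑ k : Fin n, (1 - (k : ℝ) / n) * (1 / n) = (1 + 1 / n) / 2 := by
  have hn' : (0 : ℝ) < n := by exact_mod_cast hn
  rw [Fin.sum_univ_eq_sum_range (fun k : ℕ => (1 - (k : ℝ) / n) * (1 / n)) n]
  have h : ∀ m : ℕ, ∑ k ∈ Finset.range m, (1 - (k : ℝ) / n) * (1 / n) =
      (m - m * (m - 1) / (2 * n)) / n := by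
    intro m
    induction m with
    | zero => simp
    | succ m ih => rw [Finset.sum_range_succ, ih]; push_cast; field_simp; ring
  rw [h]; field_simp; ring

/-- parallelogram bases -/
theorem TriCover.parallelogram {K : Set E3} {ι : Type} [Fintype ι] {A : ℝ} (h : TriCover K ι A)
    (n : ℕ) (hn : 0 < n) :
    ∃ (k : ℕ) (u c a b : Fin k → E3), (∀ i, ‖u i‖ = 1) ∧
      (∀ i, inner ℝ (c i) (u i) = 0 ∧ inner ℝ (a i) (u i) = 0 ∧ inner ℝ (b i) (u i) = 0) ∧
      K ⊆ ⋃ i, {x : E3 | ∃ s ∈ Icc (0 : ℝ) 1, ∃ t ∈ Icc (0 : ℝ) 1, ∃ τ : ℝ,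
        x = c i + s • a i + t • b i + τ • u i} ∧
      ∑ i, gram (a i) (b i) = A * (1 + 1 / n) := by
  obtain ⟨u, p, q, r, h1, h2, h3, h4⟩ := h
  have hn' : (0 : ℝ) < n := by exact_mod_cast hn
  let e := (Fintype.equivFin (ι × Fin n)).symm
  refine ⟨Fintype.card (ι × Fin n), fun j => u (e j).1,
    fun j => p (e j).1 + (((e j).2 : ℝ) / n) • (r (e j).1 - p (e j).1),
    fun j => (1 - ((e j).2 : ℝ) / n) • (q (e j).1 - p (e j).1),
    fun j => (1 / n : ℝ) • (r (e j).1 - p (e j).1), fun j => h1 _, fun j => ?_, ?_, ?_⟩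
  · obtain ⟨a1, a2, a3⟩ := h2 (e j).1
    simp [inner_add_left, inner_sub_left, real_inner_smul_left, a1, a2, a3]
  · intro x hx
    obtain ⟨i, b, hb, τ, rfl⟩ := mem_iUnion.1 (h3 hx)
    rw [convexHull_three] at hb
    obtain ⟨s, t, ⟨hs, ht, hst⟩, rfl⟩ := mem_par.1 hb
    simp only at hs ht hst
    obtain ⟨k, hk, hk1, hk2⟩ := exists_sign_change (fun k => (k : ℝ) / n - t) n hn
      (by simpa using ht) (by simp only [div_self hn'.ne']; linarith)
    have hk' : (k : ℝ) < n := by exact_mod_cast hk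
    have hpos : 0 < 1 - (k : ℝ) / n := by
      rw [sub_pos, div_lt_one hn']; exact hk'
    refine mem_iUnion.2 ⟨e.symm (i, ⟨k, hk⟩), s / (1 - (k : ℝ) / n), ⟨by positivity, ?_⟩,
      n * t - k, ⟨?_, ?_⟩, τ, ?_⟩
    · rw [div_le_one hpos]; linarith
    · have : (k : ℝ) / n ≤ t := by linarith
      rw [div_le_iff₀ hn'] at this; linarith
    · have : t ≤ ((k + 1 : ℕ) : ℝ) / n := by linarith
      rw [le_div_iff₀ hn'] at this; push_cast at this; linarith
    · simp only [Equiv.apply_symm_apply, smul_smul]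
      rw [div_mul_cancel₀ _ hpos.ne']
      have : t = (k : ℝ) / n + (n * t - k) * (1 / n) := by field_simp; ring
      conv_lhs => rw [this]
      module
  · rw [e.sum_comp (fun z : ι × Fin n => gram ((1 - (z.2 : ℝ) / n) • (q z.1 - p z.1))
      ((1 / n : ℝ) • (r z.1 - p z.1))), Fintype.sum_prod_type, ← h4, Finset.sum_mul]
    apply Finset.sum_congr rfl
    intro i _
    have : ∀ k : Fin n, gram ((1 - (k : ℝ) / n) • (q i - p i)) ((1 / n : ℝ) • (r i - p i)) =
        (1 - (k : ℝ) / n) * (1 / n) * gram (q i - p i) (r i - p i) := by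
      intro k
      have hk' : (k : ℝ) < n := by exact_mod_cast k.2
      have hpos : 0 < 1 - (k : ℝ) / n := by
        rw [sub_pos, div_lt_one hn']; exact hk'
      rw [gram_smul, abs_of_pos (by positivity)]
    simp only [this]
    rw [← Finset.sum_mul, sum_strips n hn]
    ring

/-- bounded relatively open bases -/
theorem TriCover.openBase {K : Set E3} {k : ℕ} {A : ℝ} (h : TriCover K (Fin k) A)
    {η : ℝ} (hη : 0 < η) :
    ∃ (u : Fin k → E3) (B : Fin k → Set E3), (∀ i, ‖u i‖ = 1) ∧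
      (∀ i, Bornology.IsBounded (B i) ∧ ∃ O : Set E3, IsOpen O ∧
        B i = O ∩ {x | inner ℝ x (u i) = 0}) ∧
      K ⊆ ⋃ i, {x : E3 | ∃ y ∈ B i, ∃ τ : ℝ, x = y + τ • u i} ∧
      ∑ i, (μHE[2] (B i)).toReal ≤ A + η := by
  obtain ⟨u, p, q, r, h1, h2, h3, h4⟩ := h
  have hu : ∀ i, u i ≠ 0 := by
    intro i h; have := h1 i; rw [h] at this; simp at this
  have hη' : 0 < η / (k + 1) := by positivity
  have := fun i => exists_open_base (hu i) (K := convexHull ℝ {p i, q i, r i}) (by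
    intro x hx
    rw [convexHull_three] at hx
    refine inner_eq_zero_of_mem_par (h2 i).1 ?_ ?_ hx
    · rw [inner_sub_left, (h2 i).2.1, (h2 i).1, sub_self]
    · rw [inner_sub_left, (h2 i).2.2, (h2 i).1, sub_self])
    (Set.Finite.isCompact_convexHull _ (toFinite _)).isBounded hη'
  choose B hB1 hB2 hB3 hB4 using this
  refine ⟨u, B, h1, fun i => ⟨hB1 i, hB2 i⟩, ?_, ?_⟩
  · intro x hx
    obtain ⟨i, b, hb, τ, rfl⟩ := mem_iUnion.1 (h3 hx)
    exact mem_iUnion.2 ⟨i, b, hB3 i hb, τ, rfl⟩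
  · calc _ ≤ ∑ i, (gram (q i - p i) (r i - p i) / 2 + η / (k + 1)) := by
          apply Finset.sum_le_sum
          intro i _
          rw [← area_triangle_toReal]; exact hB4 i
      _ = A + k * (η / (k + 1)) := by
          rw [Finset.sum_add_distrib, h4]; simp
      _ ≤ A + η := by
          gcongr
          rw [← mul_div_assoc, div_le_iff₀ (by positivity)]
          nlinarith

lemma normalized_lt {k : ℕ} (x y : Fin k → ℝ) (m : ℝ) (hm : 0 < m) (hx : ∀ i, 0 ≤ x i)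
    (hy : ∀ i, m ≤ y i) (h : ∑ i, x i < m / 2) : ∑ i, x i / y i < 1 / 2 := by
  calc ∑ i, x i / y i ≤ ∑ i, x i / m := by
        apply Finset.sum_le_sum
        intro i _
        have := hx i
        have := hy i
        gcongr
    _ = (∑ i, x i) / m := by rw [Finset.sum_div]
    _ < 1 / 2 := by rw [div_lt_iff₀ hm]; linarith

end Crest.Agent.R211

end
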