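import Crest.Agent.R211.Proj

/-!
Radial sweeps and their triangular cylinder covers (row 211, statement S0328).
-/

set_option autoImplicit false
open MeasureTheory Set
open scoped ENNReal

noncomputable section

namespace Crest.Agent.R211

lemma gram_pos {a b : E3} (hab : LinearIndependent ℝ ![a, b]) : 0 < gram a b := by
  rw [LinearIndependent.pair_iff] at hab
  apply Real.sqrt_pos.2
  by_contra hcon
  push Not at hcon
  have h1 : ‖(‖b‖ ^ 2) • a + (-inner ℝ a b) • b‖ ^ 2 =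
      ‖b‖ ^ 2 * (‖a‖ ^ 2 * ‖b‖ ^ 2 - inner ℝ a b ^ 2) := by
    simp only [normsq3, inner3, PiLp.add_apply, PiLp.smul_apply, smul_eq_mul]
    ring
  have h2 : ‖(‖b‖ ^ 2) • a + (-inner ℝ a b) • b‖ ^ 2 ≤ 0 := by
    rw [h1]; exact mul_nonpos_of_nonneg_of_nonpos (sq_nonneg _) hcon
  have h3 : (‖b‖ ^ 2) • a + (-inner ℝ a b) • b = 0 := by
    rw [← norm_eq_zero]; exact pow_eq_zero_iff (two_ne_zero) |>.1 (le_antisymm h2 (sq_nonneg _))
  have h4 : b = 0 := by simpa using (hab _ _ h3).1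
  have := (hab 0 1 (by simp [h4])).2
  simp at this

lemma affineIndependent_of_gram {p q r : E3} (h : gram (q - p) (r - p) ≠ 0) :
    AffineIndependent ℝ ![p, q, r] := by
  rw [affineIndependent_iff_not_collinear_set, collinear_iff_of_mem (p₀ := p) (by simp)]
  rintro ⟨v, hv⟩
  obtain ⟨s, hs⟩ := hv q (by simp)
  obtain ⟨t, ht⟩ := hv r (by simp)
  apply h
  rw [hs, ht]
  simp only [vadd_eq_add, add_sub_cancel_right, gram_smul]
  have : gram v v = 0 := by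
    unfold gram
    rw [real_inner_self_eq_norm_sq]
    simp [← sq]
  rw [this, mul_zero]

lemma sum_telescope {N : ℕ} (g : Fin (N + 1) → ℝ) :
    ∑ i : Fin N, (g i.succ - g i.castSucc) = g (Fin.last N) - g 0 := by
  rw [Finset.sum_sub_distrib]
  have h1 := Fin.sum_univ_succ g
  have h2 := Fin.sum_univ_castSucc g
  linarith

lemma exists_piece {N : ℕ} (t : Fin (N + 1) → ℝ) (h : t 0 < t (Fin.last N)) {τ : ℝ}
    (hτ : τ ∈ Icc (t 0) (t (Fin.last N))) : ∃ i : Fin N, t i.castSucc ≤ τ ∧ τ ≤ t i.succ := by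
  have hN : 0 < N := by
    rcases Nat.eq_zero_or_pos N with rfl | hN
    · exact absurd h (lt_irrefl _)
    · exact hN
  obtain ⟨k, hk, h1, h2⟩ := exists_sign_change
    (fun k => if hk : k < N + 1 then t ⟨k, hk⟩ - τ else 0) N hN
    (by simp only [Nat.zero_lt_succ, dite_true]; exact sub_nonpos.2 hτ.1)
    (by simp only [Nat.lt_succ_self, dite_true]; exact sub_nonneg.2 hτ.2)
  have e1 : k < N + 1 := by omega
  have e2 : k + 1 < N + 1 := by omega
  simp only [e1, e2, dite_true] at h1 h2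
  exact ⟨⟨k, hk⟩, sub_nonpos.1 h1, sub_nonneg.1 h2⟩

/-- increments of the direction field -/
lemma increment {a b : E3} {α β : ℝ} {w : ℝ → E3} {lam : ℝ → ℝ}
    (hlam : ContinuousOn lam (Icc α β))
    (hw' : ∀ t ∈ Icc α β, HasDerivWithinAt w (lam t • (a + t • b)) (Icc α β) t)
    {M : ℝ} (hM : ∀ t ∈ Icc α β, |lam t| ≤ M) {c τ : ℝ} (hc : c ∈ Icc α β) (hτ : τ ∈ Icc α β) :
    ∃ A B : ℝ, w τ = w c + A • (a + c • b) + B • b ∧ |A| ≤ M * |τ - c| ∧
      |B| ≤ M * |τ - c| * |τ - c| := by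
  have hsub : uIcc c τ ⊆ Icc α β := uIcc_subset_Icc hc hτ
  have hwc : ContinuousOn w (Icc α β) := fun t ht => (hw' t ht).continuousWithinAt
  have hl1 : IntervalIntegrable lam volume c τ := (hlam.mono hsub).intervalIntegrable
  have hl2 : IntervalIntegrable (fun s => lam s * (s - c)) volume c τ :=
    ((hlam.mono hsub).mul (by fun_prop)).intervalIntegrable
  have hftc : ∫ s in c..τ, lam s • (a + s • b) = w τ - w c := by
    apply intervalIntegral.integral_eq_sub_of_hasDeriv_right (hwc.mono hsub)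
    · intro x hx
      have hx' : x ∈ Ioo α β :=
        ⟨lt_of_le_of_lt (le_min hc.1 hτ.1) hx.1, lt_of_lt_of_le hx.2 (max_le hc.2 hτ.2)⟩
      exact ((hw' x (Ioo_subset_Icc_self hx')).hasDerivAt (Icc_mem_nhds hx'.1 hx'.2)).hasDerivWithinAt
    · exact ((hlam.mono hsub).smul (by fun_prop)).intervalIntegrable
  refine ⟨∫ s in c..τ, lam s, ∫ s in c..τ, lam s * (s - c), ?_, ?_, ?_⟩
  · have : ∀ s, lam s • (a + s • b) = lam s • (a + c • b) + (lam s * (s - c)) • b := by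
      intro s; module
    simp only [this] at hftc
    rw [intervalIntegral.integral_add (hl1.smul_continuousOn continuousOn_const)
      (hl2.smul_continuousOn continuousOn_const), intervalIntegral.integral_smul_const,
      intervalIntegral.integral_smul_const] at hftc
    rw [add_assoc, hftc]; abel
  · rw [← Real.norm_eq_abs]
    exact intervalIntegral.norm_integral_le_of_norm_le_const (fun x hx =>
      hM x (hsub (uIoc_subset_uIcc hx)))
  · rw [← Real.norm_eq_abs]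
    refine intervalIntegral.norm_integral_le_of_norm_le_const (C := M * |τ - c|) (fun x hx => ?_)
    have hx' := uIoc_subset_uIcc hx
    rw [Real.norm_eq_abs, abs_mul]
    have h1 := hM x (hsub hx')
    have h2 : |x - c| ≤ |τ - c| := abs_sub_left_of_mem_uIcc hx'
    have h3 : 0 ≤ M := (abs_nonneg _).trans h1
    gcongr

/-- the real inequalities placing a swept point in the outer triangle -/
lemma outer_real {t0 t1 c τ ρ s A B θ L M Rc : ℝ} (hτ : t0 ≤ τ ∧ τ ≤ t1)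
    (hc : t0 ≤ c ∧ c ≤ t1) (hρ0 : 0 ≤ ρ) (hρ : ρ ≤ Rc + θ) (hs : |s| ≤ L) (hM : 0 ≤ M)
    (hA : |A| ≤ M * |τ - c|) (hB : |B| ≤ M * |τ - c| * |τ - c|) (hθ : 0 < θ) (hθ1 : θ ≤ 1)
    (hσ : L * M * (t1 - t0) ≤ θ ^ 2 / 2) :
    (t0 - c - θ * (t1 - t0)) * (ρ + s * A + θ) ≤ ρ * (τ - c) + s * B ∧
      ρ * (τ - c) + s * B ≤ (t0 - c - θ * (t1 - t0) + (t1 - t0) * (1 + 2 * θ)) * (ρ + s * A + θ) ∧
      ρ + s * A + θ ≤ Rc + 3 * θ := by
  have hL : 0 ≤ L := (abs_nonneg _).trans hs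
  set l := t1 - t0 with hl
  have hl0 : 0 ≤ l := by linarith [hτ.1, hτ.2]
  have h1 : |τ - c| ≤ l := by rw [abs_le]; constructor <;> linarith [hτ.1, hτ.2, hc.1, hc.2]
  have h2 : |s * A| ≤ θ ^ 2 / 2 := by
    rw [abs_mul]
    calc |s| * |A| ≤ L * (M * l) := by
          gcongr
          exact hA.trans (by gcongr)
      _ ≤ θ ^ 2 / 2 := by linarith
  have h3 : |s * B| ≤ θ ^ 2 / 2 * l := by
    rw [abs_mul]
    calc |s| * |B| ≤ L * (M * l * l) := by
          gcongr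
          exact hB.trans (by gcongr)
      _ = L * M * l * l := by ring
      _ ≤ θ ^ 2 / 2 * l := by gcongr
  rw [abs_le] at h2 h3
  set x := s * A
  set y := s * B
  have h4 : θ / 2 ≤ x + θ := by nlinarith [h2.1]
  have h5 : θ ^ 2 / 2 * l ≤ θ * l * (ρ + x + θ) := by
    have : θ * l * (θ / 2) ≤ θ * l * (ρ + x + θ) := by gcongr; linarith
    linarith
  refine ⟨?_, ?_, by nlinarith [h2.2]⟩
  · have e1 : (t0 - c) * (x + θ) ≤ 0 :=
      mul_nonpos_of_nonpos_of_nonneg (by linarith [hc.1]) (by linarith)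
    have e2 : (t0 - c) * ρ ≤ (τ - c) * ρ := by gcongr; exact hτ.1
    nlinarith [h3.1]
  · have e1 : 0 ≤ (t1 - c) * (x + θ) := mul_nonneg (by linarith [hc.2]) (by linarith)
    have e2 : (τ - c) * ρ ≤ (t1 - c) * ρ := by gcongr; exact hτ.2
    have e3 : t0 - c - θ * l + l * (1 + 2 * θ) = t1 - c + θ * l := by rw [hl]; ring
    rw [e3]
    nlinarith [h3.2]

/-- the error estimate for one piece -/
lemma sandwich {κ J l θ Rc B V I : ℝ} (hκ : 0 ≤ κ) (hJ0 : 0 ≤ J) (hJ1 : J ≤ 1) (hl : 0 ≤ l)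
    (hθ : 0 < θ) (hθ1 : θ ≤ 1) (hR0 : 0 ≤ Rc) (hRB : Rc ≤ B)
    (h1 : max (Rc - θ) 0 ^ 2 * l * (κ * J) / 2 ≤ V)
    (h2 : V ≤ (Rc + 3 * θ) ^ 2 * (l * (1 + 2 * θ)) * (κ * J) / 2)
    (h3 : |I - Rc ^ 2 * J / 2 * l| ≤ θ * l) :
    |V - κ * I| ≤ κ * θ * ((B + 5) ^ 2 + 1) * l := by
  have hB : 0 ≤ B := hR0.trans hRB
  have e1 : (Rc + 3 * θ) ^ 2 * (1 + 2 * θ) ≤ Rc ^ 2 + 2 * θ * (B + 5) ^ 2 := by
    have q1 : (Rc + 3 * θ) ^ 2 ≤ (B + 3) ^ 2 := by gcongr; linarith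
    have q2 : θ * (Rc + 3 * θ) ^ 2 ≤ θ * (B + 3) ^ 2 := by gcongr
    have q3 : θ * Rc ≤ θ * B := by gcongr
    have q4 : θ * θ ≤ θ * 1 := by gcongr
    have q5 : 0 ≤ θ * B := by positivity
    nlinarith
  have e2 : Rc ^ 2 - 2 * θ * (B + 5) ^ 2 ≤ max (Rc - θ) 0 ^ 2 := by
    have q3 : θ * Rc ≤ θ * B := by gcongr
    have q5 : 0 ≤ θ * B := by positivity
    have q6 : 0 ≤ θ * B ^ 2 := by positivity
    rcases le_total (Rc - θ) 0 with h | h
    · rw [max_eq_right h]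
      have : Rc * Rc ≤ θ * B := by gcongr; linarith
      nlinarith
    · rw [max_eq_left h]
      nlinarith [sq_nonneg θ]
  have f0 : 0 ≤ l * (κ * J) := by positivity
  have f1 : l * (κ * J) ≤ l * κ := by
    gcongr; exact mul_le_of_le_one_right hκ hJ1
  have f2 : θ * (B + 5) ^ 2 * (l * (κ * J)) ≤ θ * (B + 5) ^ 2 * (l * κ) := by gcongr
  have g1 := mul_le_mul_of_nonneg_right e1 f0
  have g2 := mul_le_mul_of_nonneg_right e2 f0
  rw [abs_le] at h3 ⊢
  have k1 := mul_le_mul_of_nonneg_left h3.1 hκ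
  have k2 := mul_le_mul_of_nonneg_left h3.2 hκ
  constructor <;> nlinarith

/-- the inner triangle lies in the piece -/
lemma inner_subset {e a b p₀ : E3} {w : ℝ → E3} {R : ℝ → ℝ} {L t0 t1 r : ℝ} (hL : 0 ≤ L)
    (ht : t0 ≤ t1) (hr0 : 0 ≤ r) (hr : ∀ τ ∈ Icc t0 t1, r ≤ R τ) :
    par p₀ (r • (a + t0 • b)) (r • (a + t1 • b)) tri ⊆
      {x : E3 | ∃ τ ∈ Icc t0 t1, ∃ ρ ∈ Icc 0 (R τ), ∃ s : ℝ, |s| ≤ L ∧
        x = p₀ + ρ • (a + τ • b) + s • (e + w τ)} := by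
  intro x hx
  obtain ⟨s, s', ⟨h1, h2, h3⟩, rfl⟩ := mem_par.1 hx
  simp only at h1 h2 h3
  rcases (add_nonneg h1 h2).eq_or_lt with h | h
  · have e1 : s = 0 := by linarith
    have e2 : s' = 0 := by linarith
    refine ⟨t0, ⟨le_rfl, ht⟩, 0, ⟨le_rfl, hr0.trans (hr _ ⟨le_rfl, ht⟩)⟩, 0, by simpa using hL, ?_⟩
    simp [e1, e2]
  · have hτ : (s * t0 + s' * t1) / (s + s') ∈ Icc t0 t1 := by
      constructor
      · rw [le_div_iff₀ h]; nlinarith
      · rw [div_le_iff₀ h]; nlinarith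
    refine ⟨_, hτ, r * (s + s'), ⟨by positivity, ?_⟩, 0, by simpa using hL, ?_⟩
    · exact (mul_le_of_le_one_right hr0 h3).trans (hr _ hτ)
    · ext k
      simp only [PiLp.add_apply, PiLp.smul_apply, smul_eq_mul]
      field_simp
      ring

lemma gram_proj_sides {e w a b : E3} (he : ‖e‖ = 1) (ha : inner ℝ a e = 0)
    (hb : inner ℝ b e = 0) (hw : inner ℝ w e = 0) (H x y : ℝ) (hxy : x ≤ y) :
    gram (projN (e + w) (H • (a + x • b))) (projN (e + w) (H • (a + y • b))) =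
      H ^ 2 * (y - x) * (gram a b * (1 / Real.sqrt (1 + ‖w‖ ^ 2))) := by
  have h1 : ∀ z : ℝ, projN (e + w) (H • (a + z • b)) =
      H • projN (e + w) a + (H * z) • projN (e + w) b := by
    intro z
    rw [projN_smul, projN_add, projN_smul]; module
  rw [h1, h1, gram_comb, gram_projN_add he ha hb hw]
  have : H * (H * y) - H * x * H = H ^ 2 * (y - x) := by ring
  rw [this, abs_of_nonneg (mul_nonneg (sq_nonneg _) (by linarith))]
  ring

lemma add_ne_zero_of_perp {e w : E3} (he : ‖e‖ = 1) (hw : inner ℝ w e = 0) : e + w ≠ 0 := by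
  intro h
  have : inner ℝ (e + w) e = 0 := by rw [h]; simp
  rw [inner_add_left, hw, real_inner_self_eq_norm_sq, he] at this
  norm_num at this

/-- everything about one subinterval -/
lemma one_piece {e a b p₀ : E3} (he : ‖e‖ = 1) (ha : inner ℝ a e = 0) (hb : inner ℝ b e = 0)
    (hab : LinearIndependent ℝ ![a, b]) {L : ℝ} (hL : 0 < L) {α β : ℝ}
    {R : ℝ → ℝ} (hR0 : ∀ t ∈ Icc α β, 0 ≤ R t)
    {w : ℝ → E3} (hw : ∀ t ∈ Icc α β, inner ℝ (w t) e = 0)
    {lam : ℝ → ℝ} (hlam : ContinuousOn lam (Icc α β))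
    (hw' : ∀ t ∈ Icc α β, HasDerivWithinAt w (lam t • (a + t • b)) (Icc α β) t)
    {M B θ : ℝ} (hM : ∀ t ∈ Icc α β, |lam t| ≤ M) (hB : ∀ t ∈ Icc α β, R t ≤ B)
    (hθ : 0 < θ) (hθ1 : θ ≤ 1) {t0 t1 c : ℝ} (h0 : α ≤ t0) (h01 : t0 < t1) (h1 : t1 ≤ β)
    (hc : t0 ≤ c ∧ c ≤ t1) (hσ : L * M * (t1 - t0) ≤ θ ^ 2 / 2)
    (hRc : ∀ τ ∈ Icc t0 t1, |R τ - R c| ≤ θ) {I : ℝ}
    (hI : |I - R c ^ 2 / (2 * Real.sqrt (1 + ‖w c‖ ^ 2)) * (t1 - t0)| ≤ θ * (t1 - t0)) :
    ∃ p q r : E3, (inner ℝ p (e + w c) = 0 ∧ inner ℝ q (e + w c) = 0 ∧ inner ℝ r (e + w c) = 0) ∧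
      AffineIndependent ℝ ![p, q, r] ∧
      (∀ τ ∈ Icc t0 t1, ∀ ρ ∈ Icc 0 (R τ), ∀ s : ℝ, |s| ≤ L →
        ∃ y ∈ convexHull ℝ ({p, q, r} : Set E3), ∃ σ : ℝ,
          p₀ + ρ • (a + τ • b) + s • (e + w τ) = y + σ • (e + w c)) ∧
      |(μHE[2] (convexHull ℝ ({p, q, r} : Set E3))).toReal - gram a b * I| ≤
        gram a b * θ * ((B + 5) ^ 2 + 1) * (t1 - t0) ∧
      |(μHE[2] (projN (e + w c) '' {x : E3 | ∃ τ ∈ Icc t0 t1, ∃ ρ ∈ Icc 0 (R τ), ∃ s : ℝ, |s| ≤ L ∧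
        x = p₀ + ρ • (a + τ • b) + s • (e + w τ)})).toReal - gram a b * I| ≤
        gram a b * θ * ((B + 5) ^ 2 + 1) * (t1 - t0) := by
  have hcI : c ∈ Icc α β := ⟨h0.trans hc.1, hc.2.trans h1⟩
  have hsub : Icc t0 t1 ⊆ Icc α β := Icc_subset_Icc h0 h1
  have hκ := gram_pos hab
  have hn := add_ne_zero_of_perp he (hw c hcI)
  have hM0 : 0 ≤ M := (abs_nonneg _).trans (hM c hcI)
  have hRc0 := hR0 c hcI
  set n := e + w c with hndef
  set J := 1 / Real.sqrt (1 + ‖w c‖ ^ 2) with hJ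
  have hsq : 1 ≤ Real.sqrt (1 + ‖w c‖ ^ 2) := by
    apply Real.le_sqrt_of_sq_le; nlinarith [sq_nonneg ‖w c‖]
  have hJ0 : 0 < J := by positivity
  have hJ1 : J ≤ 1 := by rw [hJ, div_le_one (by positivity)]; exact hsq
  have hl : 0 < t1 - t0 := by linarith
  set H := R c + 3 * θ with hH
  have hH0 : 0 < H := by positivity
  set x0 := t0 - c - θ * (t1 - t0) with hx0
  set d := (t1 - t0) * (1 + 2 * θ) with hd
  have hd0 : 0 < d := by positivity
  set P := p₀ - θ • (a + c • b) with hP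
  set s1 := H • (a + (c + x0) • b) with hs1
  set s2 := H • (a + (c + (x0 + d)) • b) with hs2
  have hT : convexHull ℝ ({projN n P, projN n (P + s1), projN n (P + s2)} : Set E3) =
      par (projN n P) (projN n s1) (projN n s2) tri := by
    rw [convexHull_three, projN_add, projN_add, add_sub_cancel_left, add_sub_cancel_left]
  have hG : gram (projN n s1) (projN n s2) = H ^ 2 * d * (gram a b * J) := by
    rw [hs1, hs2, hndef, gram_proj_sides he ha hb (hw c hcI) H _ _ (by linarith)]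
    ring
  have hcov : ∀ τ ∈ Icc t0 t1, ∀ ρ ∈ Icc 0 (R τ), ∀ s : ℝ, |s| ≤ L →
      ∃ y ∈ par P s1 s2 tri, p₀ + ρ • (a + τ • b) + s • (e + w τ) = y + s • n := by
    intro τ hτ ρ hρ s hs
    obtain ⟨A, B', hAB, hA, hB'⟩ := increment hlam hw' hM hcI (hsub hτ)
    have hρ' : ρ ≤ R c + θ := by
      have := abs_le.1 (hRc τ hτ); linarith [hρ.2, this.2]
    obtain ⟨k1, k2, k3⟩ := outer_real hτ hc hρ.1 hρ' hs hM0 hA hB' hθ hθ1 hσ
    refine ⟨_, mem_par.2 ⟨_, _, wedge_mem_tri hd0 hH0 k1 k2 k3, rfl⟩, ?_⟩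
    rw [hAB, hndef, hP, hs1, hs2]
    ext k
    simp only [PiLp.add_apply, PiLp.sub_apply, PiLp.smul_apply, smul_eq_mul]
    field_simp
    ring
  have hI' : |I - R c ^ 2 * J / 2 * (t1 - t0)| ≤ θ * (t1 - t0) := by
    convert hI using 3
    rw [hJ]; field_simp
  have hmax : max (R c - θ) 0 ^ 2 ≤ H ^ 2 * (1 + 2 * θ) := by
    have q1 : max (R c - θ) 0 ≤ H := max_le (by linarith) hH0.le
    have q2 : max (R c - θ) 0 ^ 2 ≤ H ^ 2 := by gcongr
    nlinarith [sq_nonneg H]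
  refine ⟨projN n P, projN n (P + s1), projN n (P + s2),
    ⟨inner_projN hn _, inner_projN hn _, inner_projN hn _⟩, ?_, ?_, ?_, ?_⟩
  · apply affineIndependent_of_gram
    rw [projN_add, projN_add, add_sub_cancel_left, add_sub_cancel_left, hG]
    positivity
  · intro τ hτ ρ hρ s hs
    obtain ⟨y, hy, h⟩ := hcov τ hτ ρ hρ s hs
    refine ⟨projN n y, ?_, s + inner ℝ y n / ‖n‖ ^ 2, ?_⟩
    · rw [hT, ← image_projN_par]; exact mem_image_of_mem _ hy
    · rw [h, add_smul]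
      conv_lhs => rw [eq_projN_add (n := n) y]
      abel
  · rw [hT, area_par_tri, ENNReal.toReal_ofReal (by have := gram_nonneg (projN n s1) (projN n s2); positivity), hG]
    refine sandwich hκ.le hJ0.le hJ1 hl.le hθ hθ1 hRc0 (hB c hcI) ?_ le_rfl hI'
    have : max (R c - θ) 0 ^ 2 * ((t1 - t0) * (gram a b * J)) ≤
        H ^ 2 * (1 + 2 * θ) * ((t1 - t0) * (gram a b * J)) := by gcongr
    rw [hd]; linarith
  · set S := {x : E3 | ∃ τ ∈ Icc t0 t1, ∃ ρ ∈ Icc 0 (R τ), ∃ s : ℝ, |s| ≤ L ∧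
        x = p₀ + ρ • (a + τ • b) + s • (e + w τ)} with hS
    have up : μHE[2] (projN n '' S) ≤ ENNReal.ofReal (H ^ 2 * d * (gram a b * J) / 2) := by
      rw [← hG, ← area_par_tri (projN n P)]
      apply measure_mono
      rintro _ ⟨x, ⟨τ, hτ, ρ, hρ, s, hs, rfl⟩, rfl⟩
      obtain ⟨y, hy, h⟩ := hcov τ hτ ρ hρ s hs
      rw [h, projN_add n y, projN_smul n n s, projN_self hn, smul_zero, add_zero, ← image_projN_par]
      exact mem_image_of_mem _ hy
    have low : ENNReal.ofReal (max (R c - θ) 0 ^ 2 * (t1 - t0) * (gram a b * J) / 2) ≤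
        μHE[2] (projN n '' S) := by
      rw [hJ, ← gram_proj_sides he ha hb (hw c hcI) _ _ _ h01.le, ← area_par_tri (projN n p₀),
        ← image_projN_par]
      apply measure_mono
      apply image_mono
      refine inner_subset hL.le h01.le (le_max_right _ _) (fun τ hτ => max_le ?_ (hR0 τ (hsub hτ)))
      have := abs_le.1 (hRc τ hτ); linarith [this.1]
    have fin : μHE[2] (projN n '' S) ≠ ⊤ := ne_top_of_le_ne_top (by simp) up
    refine sandwich hκ.le hJ0.le hJ1 hl.le hθ hθ1 hRc0 (hB c hcI) ?_ ?_ hI'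
    · exact (ENNReal.ofReal_le_iff_le_toReal fin).1 low
    · exact ENNReal.toReal_le_of_le_ofReal (by positivity) up

lemma sum_close {N : ℕ} (t : Fin (N + 1) → ℝ) (G : ℝ → ℝ) (V : Fin N → ℝ) (κ C : ℝ)
    (h : ∀ i : Fin N, |V i - κ * (G (t i.succ) - G (t i.castSucc))| ≤ C * (t i.succ - t i.castSucc)) :
    |∑ i, V i - κ * (G (t (Fin.last N)) - G (t 0))| ≤ C * (t (Fin.last N) - t 0) := by
  rw [← sum_telescope (fun i => G (t i)), ← sum_telescope t, Finset.mul_sum, Finset.mul_sum,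
    ← Finset.sum_sub_distrib]
  exact (Finset.abs_sum_le_sum_abs _ _).trans (Finset.sum_le_sum fun i _ => h i)

end Crest.Agent.R211

end
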