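import Crest.Agent.R211.Area
import Crest.Agent.R211.Real

/-!
The improved triangular cylinder cover of the regular tetrahedron, and the areas of its
projections (row 211).
-/

set_option autoImplicit false
open MeasureTheory Set
open scoped ENNReal

noncomputable section

namespace Crest.Agent.R211

/-- a finite cover of `K` by cylinders over perpendicular triangles of total area `A` -/
def TriCover (K : Set E3) (ι : Type) [Fintype ι] (A : ℝ) : Prop :=
  ∃ u p q r : ι → E3, (∀ i, ‖u i‖ = 1) ∧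
    (∀ i, inner ℝ (p i) (u i) = 0 ∧ inner ℝ (q i) (u i) = 0 ∧ inner ℝ (r i) (u i) = 0) ∧
    K ⊆ ⋃ i, {x : E3 | ∃ b ∈ convexHull ℝ {p i, q i, r i}, ∃ t : ℝ, x = b + t • u i} ∧
    ∑ i, gram (q i - p i) (r i - p i) / 2 = A

lemma eq_projN_add {n : E3} (y : E3) : y = projN n y + (inner ℝ y n / ‖n‖ ^ 2) • n := by
  simp [projN]

/-- a cover by slanted triangular cylinders gives a cover with perpendicular bases -/
lemma triCover_of_raw {K : Set E3} {ι : Type} [Fintype ι] (n P a b : ι → E3) (hn : ∀ i, n i ≠ 0)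
    (hK : ∀ x ∈ K, ∃ i, ∃ y ∈ par (P i) (a i) (b i) tri, ∃ t : ℝ, x = y + t • n i) :
    TriCover K ι (∑ i, gram (projN (n i) (a i)) (projN (n i) (b i)) / 2) := by
  refine ⟨fun i => ‖n i‖⁻¹ • n i, fun i => projN (n i) (P i), fun i => projN (n i) (P i + a i),
    fun i => projN (n i) (P i + b i), ?_, ?_, ?_, ?_⟩
  · intro i
    rw [norm_smul, norm_inv, norm_norm, inv_mul_cancel₀ (norm_ne_zero_iff.2 (hn i))]
  · intro i
    simp [real_inner_smul_right, inner_projN (hn i)]
  · intro x hx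
    obtain ⟨i, y, hy, t, rfl⟩ := hK x hx
    refine mem_iUnion.2 ⟨i, projN (n i) y, ?_, (t + inner ℝ y (n i) / ‖n i‖ ^ 2) * ‖n i‖, ?_⟩
    · beta_reduce
      rw [convexHull_three, projN_add, projN_add, add_sub_cancel_left, add_sub_cancel_left,
        ← image_projN_par]
      exact mem_image_of_mem _ hy
    · rw [smul_smul, mul_assoc, mul_inv_cancel₀ (norm_ne_zero_iff.2 (hn i)), mul_one, add_smul]
      conv_lhs => rw [eq_projN_add (n := n i) y]
      abel
  · simp only [projN_add, add_sub_cancel_left]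

lemma gram_zero_left (b : E3) : gram 0 b = 0 := by simp [gram]

/-- reindexing and padding with degenerate triangles -/
lemma TriCover.pad {K : Set E3} {ι : Type} [Fintype ι] {A : ℝ} (h : TriCover K ι A) {M : ℕ}
    (hM : Fintype.card ι ≤ M) : TriCover K (Fin M) A := by
  classical
  obtain ⟨u, p, q, r, h1, h2, h3, h4⟩ := h
  obtain ⟨f⟩ : Nonempty (ι ↪ Fin M) := Function.Embedding.nonempty_of_card_le (by simpa using hM)
  have hf := f.injective
  let e0 : E3 := EuclideanSpace.single 0 1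
  refine ⟨Function.extend f u (fun _ => e0), Function.extend f p 0, Function.extend f q 0,
    Function.extend f r 0, ?_, ?_, ?_, ?_⟩
  · intro j
    by_cases hj : ∃ i, f i = j
    · obtain ⟨i, rfl⟩ := hj
      rw [hf.extend_apply]; exact h1 i
    · rw [Function.extend_apply' _ _ _ hj]; simp [e0]
  · intro j
    by_cases hj : ∃ i, f i = j
    · obtain ⟨i, rfl⟩ := hj
      simp only [hf.extend_apply]; exact h2 i
    · simp only [Function.extend_apply' _ _ _ hj]; simp
  · intro x hx
    obtain ⟨i, hi⟩ := mem_iUnion.1 (h3 hx)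
    refine mem_iUnion.2 ⟨f i, ?_⟩
    simp only [hf.extend_apply]; exact hi
  · rw [← h4]
    symm
    apply Finset.sum_of_injOn f hf.injOn (by simp)
    · intro j _ hj
      have hj' : ¬ ∃ i, f i = j := by simpa using hj
      simp only [Function.extend_apply' _ _ _ hj']
      simp [gram_zero_left]
    · intro i _
      simp only [hf.extend_apply]

/-- adding one more triangle of prescribed area -/
lemma TriCover.add {K : Set E3} {ι : Type} [Fintype ι] {A : ℝ} (h : TriCover K ι A) {A' : ℝ}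
    (hA : A ≤ A') : TriCover K (Option ι) A' := by
  obtain ⟨u, p, q, r, h1, h2, h3, h4⟩ := h
  refine ⟨fun o => o.elim (EuclideanSpace.single 0 1) u, fun o => o.elim 0 p,
    fun o => o.elim (EuclideanSpace.single 1 (A' - A)) q,
    fun o => o.elim (EuclideanSpace.single 2 2) r, ?_, ?_, ?_, ?_⟩
  · rintro (_ | i)
    · simp
    · exact h1 i
  · rintro (_ | i)
    · simp [inner3]
    · exact h2 i
  · intro x hx
    obtain ⟨i, hi⟩ := mem_iUnion.1 (h3 hx)
    exact mem_iUnion.2 ⟨some i, hi⟩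
  · rw [Fintype.sum_option]
    simp only [Option.elim_none, Option.elim_some, h4, sub_zero]
    have : gram (EuclideanSpace.single 1 (A' - A)) (EuclideanSpace.single 2 2) = 2 * (A' - A) := by
      rw [gram, Real.sqrt_eq_iff_mul_self_eq _ (by linarith)]
      · simp [normsq3, inner3]; ring
      · simp [normsq3, inner3]; positivity
    rw [this]; ring

/-- the model tetrahedron -/
def K0 : Set E3 :=
  convexHull ℝ {!₂[1, 0, 0], !₂[-1, 0, 0], !₂[0, 1, Real.sqrt 2], !₂[0, -1, Real.sqrt 2]}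

lemma sqrt2_pos : 0 < Real.sqrt 2 := by positivity
lemma sqrt2_sq : Real.sqrt 2 ^ 2 = 2 := Real.sq_sqrt (by norm_num)

lemma mem_K0 {x : E3} (hx : x ∈ K0) :
    |x 0| ≤ 1 - x 2 / Real.sqrt 2 ∧ |x 1| ≤ x 2 / Real.sqrt 2 := by
  have hs := sqrt2_pos
  have : K0 ⊆ {x : E3 | |x 0| ≤ 1 - x 2 / Real.sqrt 2 ∧ |x 1| ≤ x 2 / Real.sqrt 2} := by
    apply convexHull_min
    · intro x hx
      simp only [mem_insert_iff, mem_singleton_iff] at hx
      rcases hx with rfl | rfl | rfl | rfl <;> simp [hs.ne']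
    · intro x hx y hy α β hα hβ hαβ
      obtain ⟨hx1, hx2⟩ := hx
      obtain ⟨hy1, hy2⟩ := hy
      rw [abs_le] at hx1 hx2 hy1 hy2
      simp only [mem_ofPred_eq, PiLp.add_apply, PiLp.smul_apply, smul_eq_mul, abs_le, add_div,
        mul_div_assoc]
      refine ⟨⟨?_, ?_⟩, ?_, ?_⟩ <;>
        nlinarith [mul_le_mul_of_nonneg_left hx1.1 hα, mul_le_mul_of_nonneg_left hx1.2 hα,
          mul_le_mul_of_nonneg_left hx2.1 hα, mul_le_mul_of_nonneg_left hx2.2 hα,
          mul_le_mul_of_nonneg_left hy1.1 hβ, mul_le_mul_of_nonneg_left hy1.2 hβ,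
          mul_le_mul_of_nonneg_left hy2.1 hβ, mul_le_mul_of_nonneg_left hy2.2 hβ]
  exact this hx

lemma wedge_mem_tri {t d R Y Z : ℝ} (hd : 0 < d) (hR : 0 < R) (h1 : t * Z ≤ Y)
    (h2 : Y ≤ (t + d) * Z) (h3 : Z ≤ R) :
    (((t + d) * Z - Y) / (d * R), (Y - t * Z) / (d * R)) ∈ tri := by
  refine ⟨div_nonneg (by linarith) (by positivity), div_nonneg (by linarith) (by positivity), ?_⟩
  simp only
  rw [← add_div, div_le_one (by positivity)]
  nlinarith

/-- directions of the cylinders -/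
def dirs : Fin NN ⊕ Fin NN → E3
  | .inl i => !₂[1, -(kap * aa i), -(Real.sqrt 2 * kap * mm i)]
  | .inr j => !₂[kap * aa j, 1, -(Real.sqrt 2 * kap * mm j)]

/-- apices -/
def apex : Fin NN ⊕ Fin NN → E3
  | .inl _ => 0
  | .inr _ => !₂[0, 0, Real.sqrt 2]

/-- first sides -/
def side1 : Fin NN ⊕ Fin NN → E3
  | .inl i => !₂[0, tt i * cap (mm i), Real.sqrt 2 * cap (mm i)]
  | .inr j => !₂[tt j * cap (mm j), 0, -(Real.sqrt 2 * cap (mm j))]

/-- second sides -/
def side2 : Fin NN ⊕ Fin NN → E3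
  | .inl i => !₂[0, (tt i + del) * cap (mm i), Real.sqrt 2 * cap (mm i)]
  | .inr j => !₂[(tt j + del) * cap (mm j), 0, -(Real.sqrt 2 * cap (mm j))]

lemma dirs_ne_zero (i : Fin NN ⊕ Fin NN) : dirs i ≠ 0 := by
  rcases i with i | i
  · intro h
    have := congrArg (fun v : E3 => v 0) h
    simp [dirs] at this
  · intro h
    have := congrArg (fun v : E3 => v 1) h
    simp [dirs] at this

lemma K0_covered {x : E3} (hx : x ∈ K0) :
    ∃ i, ∃ y ∈ par (apex i) (side1 i) (side2 i) tri, ∃ t : ℝ, x = y + t • dirs i := by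
  obtain ⟨h0, h1⟩ := mem_K0 hx
  have hs := sqrt2_pos
  set ζ := x 2 / Real.sqrt 2 with hζ
  have hz : x 2 = Real.sqrt 2 * ζ := by rw [hζ]; field_simp
  obtain ⟨i, hi, hi1, hi2⟩ := exists_wedge kap (x 0) (x 1) ζ h1
  obtain ⟨j, hj, hj1, hj2⟩ := exists_wedge (-kap) (x 1) (x 0) (1 - ζ) h0
  have hd := del_pos
  rcases key_ineq (mm i) (mm j) (x 0) (x 1) ζ (mm_abs hi) (mm_abs hj) h0 h1 (aa i) (aa j) _ _ _ _
    (aa_eq i) (aa_eq j) rfl rfl rfl rfl (by rw [← tt_eq]; exact hi1)
    (by rw [← tt_succ_eq]; exact hi2) (by rw [← tt_eq]; exact hj1)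
    (by rw [← tt_succ_eq]; exact hj2) with h | h
  · rw [tt_succ] at hi2
    have hR := cap_pos (mm i)
    refine ⟨.inl ⟨i, hi⟩, _, mem_par.2 ⟨_, _, wedge_mem_tri hd hR hi1 hi2 h, rfl⟩, x 0, ?_⟩
    ext k
    fin_cases k
    · simp [apex, side1, side2, dirs]
    · simp [apex, side1, side2, dirs]
      field_simp
      ring
    · simp [apex, side1, side2, dirs, hz]
      field_simp
      ring
  · rw [tt_succ] at hj2
    have hR := cap_pos (mm j)
    refine ⟨.inr ⟨j, hj⟩, _, mem_par.2 ⟨_, _, wedge_mem_tri hd hR hj1 hj2 h, rfl⟩, x 1, ?_⟩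
    ext k
    fin_cases k
    · simp [apex, side1, side2, dirs]
      field_simp
      ring
    · simp [apex, side1, side2, dirs]
    · simp [apex, side1, side2, dirs, hz]
      field_simp
      ring

lemma gram_sides (i : Fin NN ⊕ Fin NN) :
    gram (projN (dirs i) (side1 i)) (projN (dirs i) (side2 i)) =
      Real.sqrt 2 * (del * cap (mm (i.elim id id : Fin NN)) ^ 2 /
        Real.sqrt (1 + kap ^ 2 * (aa (i.elim id id : Fin NN) ^ 2 + 2 * mm (i.elim id id : Fin NN) ^ 2))) := by
  have hs := sqrt2_pos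
  have hd := del_pos
  rw [gram_projN (dirs_ne_zero i), ← mul_div_assoc]
  rcases i with i | i
  · congr 1
    · rw [abs_eq (by positivity)]
      right
      simp [det3, dirs, side1, side2]
      ring
    · symm
      rw [Real.sqrt_eq_iff_mul_self_eq (by positivity) (norm_nonneg _), ← sq, normsq3]
      simp [dirs, mul_pow]
      ring
  · congr 1
    · rw [abs_eq (by positivity)]
      right
      simp [det3, dirs, side1, side2]
      ring
    · symm
      rw [Real.sqrt_eq_iff_mul_self_eq (by positivity) (norm_nonneg _), ← sq, normsq3]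
      simp [dirs, mul_pow]
      ring

/-- the improved cover of the model tetrahedron -/
theorem core_cover : ∃ A : ℝ, A ≤ Real.sqrt 2 * (1 / 2 - 8 / 1000000000) ∧
    TriCover K0 (Fin NN ⊕ Fin NN) A := by
  refine ⟨_, ?_, triCover_of_raw dirs apex side1 side2 dirs_ne_zero (fun x hx => K0_covered hx)⟩
  simp only [gram_sides, Fintype.sum_sum_type, Sum.elim_inl, Sum.elim_inr, id]
  rw [← Finset.sum_add_distrib]
  have h := sum_cost_le
  rw [← Fin.sum_univ_eq_sum_range (fun i => del * cap (mm i) ^ 2 /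
    Real.sqrt (1 + kap ^ 2 * (aa i ^ 2 + 2 * mm i ^ 2))) NN] at h
  simp only [add_halves]
  rw [← Finset.mul_sum]
  have := sqrt2_pos
  gcongr

end Crest.Agent.R211

end
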